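import Vale.Agent.P123.Kernel

/-
Averages over the unit circle and the inner product free part of the proof:
the Markov property of the kernel and the L2 estimate it gives.
-/

open Complex Metric Set Filter Real MeasureTheory Polynomial
open scoped Topology ComplexConjugate

namespace Vale.Agent.P123

/-- Average over the unit circle. -/
noncomputable def av {F : Type*} [NormedAddCommGroup F] [NormedSpace ℝ F] (f : ℂ → F) : F :=
  circleAverage f 0 1

abbrev sph : Set ℂ := sphere (0:ℂ) 1

section basic

variable {F : Type*} [NormedAddCommGroup F] [NormedSpace ℝ F]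

omit [NormedSpace ℝ F] in
lemma cint {f : ℂ → F} (hf : ContinuousOn f sph) : CircleIntegrable f 0 1 :=
  hf.circleIntegrable zero_le_one

lemma av_add {f g : ℂ → F} (hf : ContinuousOn f sph) (hg : ContinuousOn g sph) :
    av (fun w => f w + g w) = av f + av g :=
  circleAverage_fun_add (cint hf) (cint hg)

lemma av_sub {f g : ℂ → F} (hf : ContinuousOn f sph) (hg : ContinuousOn g sph) :
    av (fun w => f w - g w) = av f - av g :=
  circleAverage_fun_sub (cint hf) (cint hg)

lemma av_congr {f g : ℂ → F} (h : EqOn f g sph) : av f = av g :=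
  circleAverage_congr_sphere (by simpa using h)

lemma av_const [CompleteSpace F] (a : F) : av (fun _ => a) = a := circleAverage_const a 0 1

lemma av_congr_ne {f g : ℂ → F} (v : ℂ) (h : ∀ w ∈ sph, w ≠ v → f w = g w) : av f = av g := by
  apply circleAverage_congr_codiscreteWithin _ one_ne_zero
  rw [abs_one]
  have hv : ({v}ᶜ : Set ℂ) ∈ codiscreteWithin sph :=
    mem_codiscreteWithin_iff_forall_mem_nhdsNE.mpr fun x _ => by
      by_cases hx : x = v
      · subst hx
        exact mem_of_superset self_mem_nhdsWithin subset_union_left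
      · exact mem_of_superset (mem_nhdsWithin_of_mem_nhds (isOpen_compl_singleton.mem_nhds hx))
          subset_union_left
  filter_upwards [hv, self_mem_codiscreteWithin sph] with w h1 h2 using h w h2 h1

end basic

lemma av_cmul (a : ℂ) (f : ℂ → ℂ) : av (fun w => a * f w) = a * av f :=
  circleAverage_fun_smul (a := a) (f := f)

lemma av_rmul (a : ℝ) (f : ℂ → ℝ) : av (fun w => a * f w) = a * av f :=
  circleAverage_fun_smul (a := a) (f := f)

lemma av_re {f : ℂ → ℂ} (hf : ContinuousOn f sph) : av (fun w => (f w).re) = (av f).re :=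
  reCLM.circleAverage_comp_comm (cint hf)

lemma av_conj {f : ℂ → ℂ} (hf : ContinuousOn f sph) : av (fun w => conj (f w)) = conj (av f) :=
  (conjCLE : ℂ →L[ℝ] ℂ).circleAverage_comp_comm (cint hf)

lemma av_ofReal {f : ℂ → ℝ} (hf : ContinuousOn f sph) :
    av (fun w => ((f w : ℝ) : ℂ)) = ((av f : ℝ) : ℂ) :=
  ofRealCLM.circleAverage_comp_comm (cint hf)

lemma cre {f : ℂ → ℂ} (hf : ContinuousOn f sph) : ContinuousOn (fun w => (f w).re) sph :=
  Complex.continuous_re.comp_continuousOn hf

lemma ccj {f : ℂ → ℂ} (hf : ContinuousOn f sph) : ContinuousOn (fun w => conj (f w)) sph :=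
  continuous_conj.comp_continuousOn hf

lemma cns {f : ℂ → ℂ} (hf : ContinuousOn f sph) : ContinuousOn (fun w => normSq (f w)) sph :=
  continuous_normSq.comp_continuousOn hf

lemma av_mono {f g : ℂ → ℝ} (hf : ContinuousOn f sph) (hg : ContinuousOn g sph)
    (h : ∀ w ∈ sph, f w ≤ g w) : av f ≤ av g :=
  circleAverage_mono (cint hf) (cint hg) (by simpa using h)

lemma av_holo {R : ℝ} (hR : 1 < R) {f : ℂ → ℂ} (hf : DifferentiableOn ℂ f (ball 0 R)) :
    av f = f 0 := by
  apply DiffContOnCl.circleAverage
  rw [abs_one]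
  exact (hf.mono (closedBall_subset_ball hR)).diffContOnCl_ball Subset.rfl

lemma av_swap {f : ℂ → ℂ → ℝ}
    (hf : ContinuousOn (fun p : ℂ × ℂ => f p.1 p.2) (sph ×ˢ sph)) :
    av (fun v => av (fun w => f w v)) = av (fun w => av (fun v => f w v)) := by
  have hc : Continuous (fun p : ℝ × ℝ => f (circleMap 0 1 p.1) (circleMap 0 1 p.2)) :=
    ContinuousOn.comp_continuous (g := fun p : ℂ × ℂ => f p.1 p.2)
      (f := fun p : ℝ × ℝ => (circleMap 0 1 p.1, circleMap 0 1 p.2)) hf
      (by fun_prop)
      (fun p => ⟨circleMap_mem_sphere 0 zero_le_one _, circleMap_mem_sphere 0 zero_le_one _⟩)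
  simp only [av, circleAverage_def, smul_eq_mul, intervalIntegral.integral_const_mul]
  congr 2
  apply intervalIntegral_intervalIntegral_swap
  have h2 : Continuous (Function.uncurry fun x y : ℝ => f (circleMap 0 1 y) (circleMap 0 1 x)) :=
    hc.comp continuous_swap
  exact (h2.continuousOn.integrableOn_compact (isCompact_uIcc.prod isCompact_uIcc)).mono_set
    (prod_mono uIoc_subset_uIcc uIoc_subset_uIcc)

namespace ExtMap

variable (M : ExtMap)

lemma holo_sph {f : ℂ → ℂ} {R : ℝ} (hR : 1 < R) (hf : DifferentiableOn ℂ f (ball 0 R)) :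
    ContinuousOn f sph :=
  hf.continuousOn.mono (sphere_subset_ball hR)

lemma sph_ne_zero {w : ℂ} (hw : w ∈ sph) : w ≠ 0 := by
  intro h; simp [sph, h] at hw

lemma pt_cont : ContinuousOn M.pt sph :=
  ((M.diff.continuousOn.mono (sphere_subset_ball M.one_lt)).div continuousOn_id
    (fun _ hw => sph_ne_zero hw))

lemma numdiv_cont : ContinuousOn (fun w => M.num w / w) sph :=
  (holo_sph M.one_lt_R M.num_diff).div continuousOn_id (fun _ hw => sph_ne_zero hw)

lemma poly_pt_cont (q : ℂ[X]) : ContinuousOn (fun w => q.eval (M.pt w)) sph :=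
  q.continuous.comp_continuousOn M.pt_cont

lemma av_pow_num (k : ℕ) : av (fun w => M.pt w ^ k * (M.num w / w)) = 0 := by
  rw [av, circleAverage_def]
  have hd : ∀ θ : ℝ, HasDerivAt
      (fun t : ℝ => I * ((M.pt (circleMap 0 1 t)) ^ (k + 1) / ((k + 1 : ℕ) : ℂ)))
      (M.pt (circleMap 0 1 θ) ^ k * (M.num (circleMap 0 1 θ) / circleMap 0 1 θ)) θ := by
    intro θ
    have hm : circleMap 0 1 θ ∈ sph := circleMap_mem_sphere 0 zero_le_one θ
    have h0 := sph_ne_zero hm
    have hmem : circleMap 0 1 θ ∈ ball (0:ℂ) M.rad := M.mem_rad (M.unit_mem hm)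
    have hpt : HasDerivAt M.pt ((deriv M.fn (circleMap 0 1 θ) * circleMap 0 1 θ
        - M.fn (circleMap 0 1 θ) * 1) / circleMap 0 1 θ ^ 2) (circleMap 0 1 θ) :=
      ((M.diff.differentiableAt (isOpen_ball.mem_nhds hmem)).hasDerivAt).div (hasDerivAt_id _) h0
    have := (((hpt.pow (k + 1)).div_const ((k + 1 : ℕ) : ℂ)).const_mul I).comp θ
      (hasDerivAt_circleMap 0 1 θ)
    refine this.congr_deriv ?_
    have hk : ((k + 1 : ℕ) : ℂ) ≠ 0 := Nat.cast_ne_zero.mpr k.succ_ne_zero
    simp only [add_tsub_cancel_right, num]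
    field_simp
    linear_combination (M.pt (circleMap 0 1 θ) ^ k * (deriv M.fn (circleMap 0 1 θ) *
      circleMap 0 1 θ - M.fn (circleMap 0 1 θ))) * I_mul_I
  have hc : Continuous fun θ : ℝ =>
      M.pt (circleMap 0 1 θ) ^ k * (M.num (circleMap 0 1 θ) / circleMap 0 1 θ) :=
    ((M.pt_cont.pow k).mul M.numdiv_cont).comp_continuous (continuous_circleMap 0 1)
      (fun θ => circleMap_mem_sphere 0 zero_le_one θ)
  rw [intervalIntegral.integral_eq_sub_of_hasDerivAt (fun θ _ => hd θ)
    (hc.intervalIntegrable _ _)]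
  have := periodic_circleMap (0:ℂ) 1 0
  simp only [zero_add] at this
  simp [this]

lemma av_poly_num (q : ℂ[X]) : av (fun w => q.eval (M.pt w) * (M.num w / w)) = 0 := by
  induction q using Polynomial.induction_on' with
  | add p q hp hq =>
    simp only [eval_add, add_mul]
    rw [av_add ((M.poly_pt_cont p).fun_mul M.numdiv_cont) ((M.poly_pt_cont q).fun_mul M.numdiv_cont),
      hp, hq, add_zero]
  | monomial n a => simp only [eval_monomial, mul_assoc, av_cmul, M.av_pow_num, mul_zero]

/-- Faber polynomials: principal parts are realised by polynomials in `pt`. -/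
lemma exists_faber (n : ℕ) : ∀ H : ℂ → ℂ, DifferentiableOn ℂ H (ball 0 M.rad) →
    ∃ (q : ℂ[X]) (E : ℂ → ℂ), DifferentiableOn ℂ E (ball 0 M.rad) ∧ E 0 = 0 ∧
      ∀ w ∈ ball (0:ℂ) M.rad, w ≠ 0 → q.eval (M.pt w) = H w / w ^ n + E w := by
  have h0 : (0:ℂ) ∈ ball (0:ℂ) M.rad := by simpa using lt_trans one_pos M.one_lt
  induction n with
  | zero =>
    intro H hH
    exact ⟨Polynomial.C (H 0), fun w => H 0 - H w, (differentiableOn_const _).sub hH, by simp,
      fun w _ _ => by simp⟩
  | succ n ih =>
    intro H hH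
    set a := H 0 / M.fn 0 ^ (n + 1) with ha
    set Φ := fun w => a * M.fn w ^ (n + 1) - H w with hΦ
    have hΦd : DifferentiableOn ℂ Φ (ball 0 M.rad) :=
      ((differentiableOn_const a).mul (M.diff.pow _)).sub hH
    have hΦ0 : Φ 0 = 0 := by
      simp only [hΦ, ha]
      rw [div_mul_cancel₀ _ (pow_ne_zero _ M.fn_zero_ne), sub_self]
    have hd : DifferentiableOn ℂ (dslope Φ 0) (ball 0 M.rad) :=
      (differentiableOn_dslope (isOpen_ball.mem_nhds h0)).mpr hΦd
    obtain ⟨q, E, hE, hE0, hq⟩ := ih (fun w => - dslope Φ 0 w) hd.neg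
    refine ⟨q + Polynomial.C a * X ^ (n + 1), E, hE, hE0, fun w hw hw0 => ?_⟩
    have : a * M.fn w ^ (n + 1) = H w + w * dslope Φ 0 w := by
      have := sub_smul_dslope Φ 0 w
      rw [hΦ0, sub_zero, sub_zero, smul_eq_mul] at this
      rw [this]; simp [hΦ]
    rw [eval_add, eval_mul, eval_C, eval_pow, eval_X, hq w hw hw0, pt, div_pow, ← mul_div_assoc,
      this, pow_succ]
    field_simp
    ring

lemma av_L_mul {v : ℂ} (hv : v ∈ sph) {f : ℂ → ℂ} {R : ℝ} (hR : 1 < R)
    (hf : DifferentiableOn ℂ f (ball 0 R)) : av (fun w => M.L w v * f w) = 0 := by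
  have := av_holo (R := min R M.R) (lt_min hR M.one_lt_R) (f := fun w => M.L w v * f w)
    (((M.L_diff_fst (M.unit_mem hv)).mono (ball_subset_ball (min_le_right _ _))).mul
      (hf.mono (ball_subset_ball (min_le_left _ _))))
  simpa using this

lemma L_cont_fst {v : ℂ} (hv : v ∈ sph) : ContinuousOn (fun w => M.L w v) sph :=
  holo_sph M.one_lt_R (M.L_diff_fst (M.unit_mem hv))

lemma ker_cont : ContinuousOn (fun p : ℂ × ℂ => M.ker p.1 p.2) (sph ×ˢ sph) :=
  continuousOn_const.add (continuousOn_const.mul (Complex.continuous_re.comp_continuousOn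
    (M.L_continuousOn.mono (prod_mono (fun _ => M.unit_mem) (fun _ => M.unit_mem)))))

lemma ker_cont_fst {v : ℂ} (hv : v ∈ sph) : ContinuousOn (fun w => M.ker w v) sph :=
  continuousOn_const.add (continuousOn_const.mul (cre
    (M.L_cont_fst hv)))

lemma av_ker_snd {v : ℂ} (hv : v ∈ sph) : av (fun w => M.ker w v) = 1 := by
  unfold ker
  rw [av_add continuousOn_const (continuousOn_const.fun_mul
      (cre (M.L_cont_fst hv))), av_const, av_rmul,
    av_re (M.L_cont_fst hv), av_holo M.one_lt_R (M.L_diff_fst (M.unit_mem hv))]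
  simp

lemma av_ker_fst {w : ℂ} (hw : w ∈ sph) : av (fun v => M.ker w v) = 1 := by
  have hc : ContinuousOn (fun v => M.L w v) sph :=
    holo_sph M.one_lt_R (M.L_diff_snd (M.unit_mem hw))
  unfold ker
  rw [av_add continuousOn_const (continuousOn_const.fun_mul
      (cre hc)), av_const, av_rmul,
    av_re hc, av_holo M.one_lt_R (M.L_diff_snd (M.unit_mem hw))]
  simp

/-- The double layer potential of boundary data `conj U`. -/
lemma av_ker_conj {U E : ℂ → ℂ} (hU : DifferentiableOn ℂ U (ball 0 M.rad))
    (hE : DifferentiableOn ℂ E (ball 0 M.rad)) (hE0 : E 0 = 0) (q : ℂ[X])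
    (hq : ∀ w ∈ sph, q.eval (M.pt w) = conj (U w) + E w) {v : ℂ} (hv : v ∈ sph) :
    av (fun w => (M.ker w v : ℂ) * conj (U w)) = conj (U 0) + E v := by
  have hvm : v ∈ ball (0:ℂ) M.rad := M.mem_rad (M.unit_mem hv)
  have hv0 := sph_ne_zero hv
  have hUc := holo_sph M.one_lt hU
  have hEc := holo_sph M.one_lt hE
  have hL := M.L_cont_fst hv
  have hbar : ContinuousOn (fun w => conj (U w)) sph := ccj hUc
  obtain ⟨Q, hQ⟩ := X_sub_C_dvd_sub_C_eval (a := M.pt v) (p := q)
  have hdE : DifferentiableOn ℂ (dslope E v) (ball 0 M.rad) :=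
    (differentiableOn_dslope (isOpen_ball.mem_nhds hvm)).mpr hE
  have hdU : DifferentiableOn ℂ (fun w => w * dslope U v w) (ball 0 M.rad) :=
    differentiableOn_id.mul ((differentiableOn_dslope (isOpen_ball.mem_nhds hvm)).mpr hU)
  -- the key pointwise identity away from the diagonal
  have key : av (fun w => M.L w v * (q.eval (M.pt w) - q.eval (M.pt v))) =
      av (fun w => Q.eval (M.pt w) * (M.num w / w) +
        (v * dslope E v w - conj (w * dslope U v w))) := by
    apply av_congr_ne v
    intro w hw hne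
    have hw0 := sph_ne_zero hw
    have hp := M.pt_ne (M.unit_mem hw) (M.unit_mem hv) hne hw0 hv0
    have hQw : q.eval (M.pt w) - q.eval (M.pt v) = (M.pt w - M.pt v) * Q.eval (M.pt w) := by
      have := congrArg (Polynomial.eval (M.pt w)) hQ
      simpa using this
    rw [M.L_eq (M.unit_mem hw) (M.unit_mem hv) hne hw0 hv0, sub_mul]
    have e1 : M.num w / w / (M.pt w - M.pt v) * (q.eval (M.pt w) - q.eval (M.pt v)) =
        Q.eval (M.pt w) * (M.num w / w) := by
      rw [hQw]; field_simp
    have e2 : v / (v - w) * (q.eval (M.pt w) - q.eval (M.pt v)) =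
        - (v * dslope E v w - conj (w * dslope U v w)) := by
      have hvw : v - w ≠ 0 := sub_ne_zero.mpr (Ne.symm hne)
      have hwv : w - v ≠ 0 := sub_ne_zero.mpr hne
      have hcw : conj w = w⁻¹ := (Complex.inv_eq_conj (mem_sphere_zero_iff_norm.mp hw)).symm
      have hcv : conj v = v⁻¹ := (Complex.inv_eq_conj (mem_sphere_zero_iff_norm.mp hv)).symm
      have hc : conj (w * dslope U v w) = v / (v - w) * (conj (U w) - conj (U v)) := by
        have h1 : w⁻¹ - v⁻¹ ≠ 0 := sub_ne_zero.mpr (fun h => hne (inv_injective h))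
        rw [dslope_of_ne _ hne, slope_def_field, map_mul, map_div₀, map_sub, map_sub, hcw, hcv]
        field_simp
      rw [hc, dslope_of_ne _ hne, slope_def_field, hq w hw, hq v hv]
      field_simp
      ring
    rw [e1, e2, sub_neg_eq_add]
  have hA : av (fun w => M.L w v * q.eval (M.pt w)) = E v := by
    have e : av (fun w => M.L w v * q.eval (M.pt w)) =
        av (fun w => M.L w v * (q.eval (M.pt w) - q.eval (M.pt v))) +
          av (fun w => M.L w v * q.eval (M.pt v)) := by
      rw [← av_add (hL.fun_mul ((M.poly_pt_cont q).fun_sub continuousOn_const))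
        (hL.fun_mul continuousOn_const)]
      apply av_congr
      intro w _
      ring
    rw [e, M.av_L_mul hv M.one_lt (differentiableOn_const _), add_zero, key]
    have c1 : ContinuousOn (fun w => v * dslope E v w) sph :=
      continuousOn_const.fun_mul (holo_sph M.one_lt hdE)
    have c2 : ContinuousOn (fun w => conj (w * dslope U v w)) sph :=
      ccj (holo_sph M.one_lt hdU)
    rw [av_add ((M.poly_pt_cont Q).fun_mul M.numdiv_cont) (c1.fun_sub c2), M.av_poly_num,
      av_sub c1 c2, av_cmul, av_conj (holo_sph M.one_lt hdU), av_holo M.one_lt hdE,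
      av_holo M.one_lt hdU, dslope_of_ne _ (Ne.symm hv0), slope_def_field, hE0]
    simp
    field_simp
  have hB : av (fun w => M.L w v * conj (U w)) = E v := by
    have e : av (fun w => M.L w v * conj (U w)) =
        av (fun w => M.L w v * q.eval (M.pt w)) - av (fun w => M.L w v * E w) := by
      rw [← av_sub (hL.fun_mul (M.poly_pt_cont q)) (hL.fun_mul hEc)]
      apply av_congr
      intro w hw
      simp only [hq w hw]; ring
    rw [e, hA, M.av_L_mul hv M.one_lt hE, sub_zero]
  have hC : av (fun w => conj (M.L w v * U w)) = 0 := by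
    rw [av_conj (hL.fun_mul hUc), M.av_L_mul hv M.one_lt hU, map_zero]
  have : av (fun w => (M.ker w v : ℂ) * conj (U w)) =
      av (fun w => conj (U w) + (M.L w v * conj (U w) + conj (M.L w v * U w))) := by
    apply av_congr
    intro w _
    simp only [ker, map_mul]
    push_cast
    rw [Complex.re_eq_add_conj]
    ring
  rw [this, av_add hbar ((hL.fun_mul hbar).fun_add (ccj (hL.fun_mul hUc))),
    av_add (hL.fun_mul hbar) (ccj (hL.fun_mul hUc)),
    hB, hC, av_conj hUc, av_holo M.one_lt hU, add_zero]

/-- The kernel is doubly stochastic, hence a contraction in L2. -/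
lemma av_normSq_bound (hker : ∀ w ∈ sph, ∀ v ∈ sph, 0 ≤ M.ker w v) {U E : ℂ → ℂ}
    (hU : DifferentiableOn ℂ U (ball 0 M.rad))
    (hE : DifferentiableOn ℂ E (ball 0 M.rad)) (hE0 : E 0 = 0) (q : ℂ[X])
    (hq : ∀ w ∈ sph, q.eval (M.pt w) = conj (U w) + E w) :
    av (fun w => normSq (q.eval (M.pt w))) ≤
      2 * av (fun w => normSq (U w)) - normSq (U 0) := by
  have hUc := holo_sph M.one_lt hU
  have hEc := holo_sph M.one_lt hE
  have hbar : ContinuousOn (fun w => conj (U w)) sph := ccj hUc
  have hUn : ContinuousOn (fun w => normSq (U w)) sph :=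
    cns hUc
  have hEn : ContinuousOn (fun w => normSq (E w)) sph :=
    cns hEc
  have cc : ContinuousOn (fun p : ℂ × ℂ => M.ker p.1 p.2 * normSq (U p.1)) (sph ×ˢ sph) :=
    M.ker_cont.mul (hUn.comp continuousOn_fst (fun p hp => hp.1))
  -- Jensen
  have jen : ∀ v ∈ sph, normSq (conj (U 0) + E v) ≤ av (fun w => M.ker w v * normSq (U w)) := by
    intro v hv
    set P := conj (U 0) + E v with hP
    have hk := M.ker_cont_fst hv
    have hkC : ContinuousOn (fun w => (M.ker w v : ℂ)) sph :=
      Complex.continuous_ofReal.comp_continuousOn hk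
    have h0 : 0 ≤ av (fun w => M.ker w v * normSq (conj (U w) - P)) := by
      have := av_mono (f := fun _ => (0:ℝ)) continuousOn_const
        (g := fun w => M.ker w v * normSq (conj (U w) - P))
        (hk.fun_mul (cns (hbar.fun_sub continuousOn_const)))
        (fun w hw => mul_nonneg (hker w hw v hv) (normSq_nonneg _))
      rwa [av_const] at this
    have e : av (fun w => M.ker w v * normSq (conj (U w) - P)) =
        av (fun w => M.ker w v * normSq (U w)) + normSq P * av (fun w => M.ker w v) -
          2 * (av (fun w => (M.ker w v : ℂ) * conj (U w) * conj P)).re := by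
      rw [← av_re ((hkC.fun_mul hbar).fun_mul continuousOn_const), ← av_rmul, ← av_rmul,
        ← av_add (hk.fun_mul hUn) (continuousOn_const.fun_mul hk),
        ← av_sub ((hk.fun_mul hUn).fun_add (continuousOn_const.fun_mul hk))
          (continuousOn_const.fun_mul (cre
            ((hkC.fun_mul hbar).fun_mul continuousOn_const)))]
      apply av_congr
      intro w _
      simp only [normSq_sub, normSq_conj, mul_assoc, re_ofReal_mul]
      ring
    have e2 : av (fun w => (M.ker w v : ℂ) * conj (U w) * conj P) = P * conj P := by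
      have : (fun w => (M.ker w v : ℂ) * conj (U w) * conj P) =
          fun w => conj P * ((M.ker w v : ℂ) * conj (U w)) := by ext w; ring
      rw [this, av_cmul, M.av_ker_conj hU hE hE0 q hq hv, ← hP]; ring
    rw [e, M.av_ker_snd hv, e2, mul_conj, ofReal_re] at h0
    linarith
  have h1 : av (fun v => normSq (conj (U 0) + E v)) ≤ av (fun w => normSq (U w)) := by
    have hI : av (fun v => av (fun w => M.ker w v * normSq (U w))) =
        av (fun w => normSq (U w)) := by
      rw [av_swap cc]
      apply av_congr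
      intro w hw
      simp only [mul_comm _ (normSq (U w)), av_rmul, M.av_ker_fst hw, mul_one]
    rw [← hI]
    refine av_mono (cns (continuousOn_const.fun_add hEc)) ?_ jen
    have hc : ContinuousOn (fun v => av (fun w => M.ker w v * normSq (U w))) sph := by
      rw [continuousOn_iff_continuous_domRestrict]
      refine Continuous.const_smul ?_ ((2 * π)⁻¹ : ℝ)
      apply intervalIntegral.continuous_parametric_intervalIntegral_of_continuous'
      exact ContinuousOn.comp_continuous (g := fun p : ℂ × ℂ => M.ker p.1 p.2 * normSq (U p.1))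
        (f := fun p : sph × ℝ => (circleMap 0 1 p.2, (p.1 : ℂ))) cc
        (by fun_prop) (fun p => ⟨circleMap_mem_sphere 0 zero_le_one _, p.1.2⟩)
    exact hc
  have h2 : av (fun v => normSq (conj (U 0) + E v)) = normSq (U 0) + av (fun v => normSq (E v)) := by
    have : av (fun v => normSq (conj (U 0) + E v)) =
        av (fun v => normSq (U 0) + normSq (E v) + 2 * (U 0 * E v).re) := by
      apply av_congr
      intro v _
      simp only [normSq_apply, add_re, add_im, conj_re, conj_im, mul_re]
      ring
    rw [this, av_add (continuousOn_const.fun_add hEn) (continuousOn_const.fun_mul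
        (cre (continuousOn_const.fun_mul hEc))),
      av_add continuousOn_const hEn, av_const, av_rmul, av_re (continuousOn_const.fun_mul hEc),
      av_cmul, av_holo M.one_lt hE, hE0]
    simp
  have h3 : av (fun w => normSq (q.eval (M.pt w))) =
      av (fun w => normSq (U w)) + av (fun v => normSq (E v)) := by
    have : av (fun w => normSq (q.eval (M.pt w))) =
        av (fun w => normSq (U w) + normSq (E w) + 2 * (U w * E w).re) := by
      apply av_congr
      intro w hw
      simp only [hq w hw, normSq_apply, add_re, add_im, conj_re, conj_im, mul_re]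
      ring
    rw [this, av_add (hUn.fun_add hEn) (continuousOn_const.fun_mul
        (cre (hUc.fun_mul hEc))),
      av_add hUn hEn, av_rmul, av_re (hUc.fun_mul hEc)]
    have e := av_holo M.one_lt (f := fun w => U w * E w) (hU.mul hE)
    rw [e, hE0]
    simp
  linarith

end ExtMap

end Vale.Agent.P123
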