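import Vale.Agent.P123.Average

/-
The core estimate: given exterior map data whose boundary curve is convex and encloses the
numerical range of an operator `B`, every singular value of `q(B)` is at most `2` when
`‖q‖ ≤ 1` on the curve.
-/

open Complex Metric Set Filter Real MeasureTheory Polynomial
open scoped Topology ComplexConjugate

namespace Vale.Agent.P123.ExtMap

variable (M : ExtMap) {H : Type*} [NormedAddCommGroup H] [InnerProductSpace ℂ H] [CompleteSpace H]
  (B : H →L[ℂ] H)

/-- `ζ ψ'(ζ) (ψ(ζ) - B)⁻¹` in the inverted coordinate. -/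
noncomputable def kop (w : ℂ) : H →L[ℂ] H :=
  M.num w • Ring.inverse (M.fn w • (1 : H →L[ℂ] H) - w • B)

variable {B}

lemma kop_diff (hunit : ∀ w ∈ ball (0:ℂ) M.R, IsUnit (M.fn w • (1 : H →L[ℂ] H) - w • B)) :
    DifferentiableOn ℂ (M.kop B) (ball 0 M.R) := by
  intro w hw
  have h1 : DifferentiableWithinAt ℂ (fun w => M.fn w • (1 : H →L[ℂ] H) - w • B) (ball 0 M.R) w :=
    (((M.diff.mono fun _ => M.mem_rad) w hw).smul_const _).sub
      (differentiableWithinAt_id.smul_const _)
  have h2 : DifferentiableAt ℂ Ring.inverse (M.fn w • (1 : H →L[ℂ] H) - w • B) :=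
    differentiableAt_inverse (hunit w hw)
  exact (M.num_diff w hw).smul (DifferentiableAt.comp_differentiableWithinAt (g := Ring.inverse) w h2 h1)

lemma mul_kop {w : ℂ} (hu : IsUnit (M.fn w • (1 : H →L[ℂ] H) - w • B)) :
    (M.fn w • (1 : H →L[ℂ] H) - w • B) * M.kop B w = M.num w • 1 := by
  rw [kop, mul_smul_comm, Ring.mul_inverse_cancel _ hu]

lemma kop_zero (hunit : ∀ w ∈ ball (0:ℂ) M.R, IsUnit (M.fn w • (1 : H →L[ℂ] H) - w • B)) :
    M.kop B 0 = 1 := by
  have h := M.mul_kop (hunit 0 (by simpa using M.R_pos))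
  simp only [zero_smul, sub_zero, smul_mul_assoc, one_mul, num, zero_mul] at h
  exact (smul_right_injective _ M.fn_zero_ne) h

/-- Matrix coefficient of `kop`. -/
noncomputable def coef (B : H →L[ℂ] H) (a b : H) (w : ℂ) : ℂ := inner ℂ a (M.kop B w b)

variable (hunit : ∀ w ∈ ball (0:ℂ) M.R, IsUnit (M.fn w • (1 : H →L[ℂ] H) - w • B))

include hunit

lemma coef_diff (a b : H) : DifferentiableOn ℂ (M.coef B a b) (ball 0 M.R) := by
  have := ((innerSL ℂ a).comp (ContinuousLinearMap.apply ℂ H b)).differentiable.comp_differentiableOn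
    (M.kop_diff hunit)
  exact this

lemma coef_zero (a b : H) : M.coef B a b 0 = inner ℂ a b := by simp [coef, M.kop_zero hunit]

lemma coef_cont (a b : H) : ContinuousOn (M.coef B a b) sph :=
  holo_sph M.one_lt_R (M.coef_diff hunit a b)

lemma pt_mul_coef {w : ℂ} (hw : w ∈ sph) (a b : H) :
    M.pt w * M.coef B a b w =
      M.num w / w * inner ℂ a b + M.coef B (ContinuousLinearMap.adjoint B a) b w := by
  have h := congrArg (fun T : H →L[ℂ] H => inner ℂ a (T b))
    (M.mul_kop (hunit w (M.unit_mem hw)))
  simp only [ContinuousLinearMap.mul_def, ContinuousLinearMap.coe_comp', Function.comp_apply,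
    ContinuousLinearMap.coe_sub', Pi.sub_apply, ContinuousLinearMap.coe_smul', Pi.smul_apply,
    ContinuousLinearMap.one_apply, inner_sub_right, inner_smul_right] at h
  have hw0 := sph_ne_zero hw
  rw [coef, coef, ContinuousLinearMap.adjoint_inner_left, pt]
  field_simp
  linear_combination h

lemma av_pow_coef (k : ℕ) : ∀ a b : H,
    av (fun w => M.pt w ^ k * M.coef B a b w) = inner ℂ a ((B ^ k) b) := by
  induction k with
  | zero =>
    intro a b
    simp only [pow_zero, one_mul, ContinuousLinearMap.one_apply]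
    exact (av_holo M.one_lt_R (M.coef_diff hunit a b)).trans (M.coef_zero hunit a b)
  | succ k ih =>
    intro a b
    have e : av (fun w => M.pt w ^ (k + 1) * M.coef B a b w) =
        av (fun w => inner ℂ a b * (M.pt w ^ k * (M.num w / w)) +
          M.pt w ^ k * M.coef B (ContinuousLinearMap.adjoint B a) b w) := by
      apply av_congr
      intro w hw
      simp only []
      rw [pow_succ, mul_assoc, M.pt_mul_coef hunit hw]
      ring
    rw [e, av_add (continuousOn_const.fun_mul ((M.pt_cont.fun_pow k).fun_mul M.numdiv_cont))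
      ((M.pt_cont.fun_pow k).fun_mul (M.coef_cont hunit _ b)), av_cmul, M.av_pow_num, mul_zero,
      zero_add, ih, ContinuousLinearMap.adjoint_inner_left, pow_succ']
    rfl

/-- The functional calculus by contour averages. -/
lemma av_poly_coef (q : ℂ[X]) (a b : H) :
    av (fun w => q.eval (M.pt w) * M.coef B a b w) = inner ℂ a ((aeval B q) b) := by
  induction q using Polynomial.induction_on' with
  | add p r hp hr =>
    simp only [eval_add, add_mul, map_add]
    rw [av_add ((M.poly_pt_cont p).fun_mul (M.coef_cont hunit a b))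
      ((M.poly_pt_cont r).fun_mul (M.coef_cont hunit a b)), hp, hr]
    simp [inner_add_right]
  | monomial n c =>
    simp only [eval_monomial, mul_assoc, av_cmul, M.av_pow_coef hunit]
    simp [aeval_monomial, Algebra.algebraMap_eq_smul_one, inner_smul_right]

/-- Positivity of the operator valued double layer kernel. -/
lemma coef_pos
    (hrange : ∀ w ∈ sph, ∀ e : H,
      0 ≤ (M.num w / w * conj (M.pt w * (‖e‖ ^ 2 : ℝ) - inner ℂ e (B e))).re)
    {w : ℂ} (hw : w ∈ sph) (z : H) : 0 ≤ (M.coef B z z w).re := by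
  set A := M.fn w • (1 : H →L[ℂ] H) - w • B with hA
  obtain ⟨e, he⟩ : ∃ e : H, A e = z := ⟨Ring.inverse A z, by
    have := congrArg (fun T : H →L[ℂ] H => T z)
      (Ring.mul_inverse_cancel A (hunit w (M.unit_mem hw)))
    simpa using this⟩
  have hAi : Ring.inverse A z = e := by
    have := congrArg (fun T : H →L[ℂ] H => T e)
      (Ring.inverse_mul_cancel A (hunit w (M.unit_mem hw)))
    rw [← he]; simpa using this
  have : M.coef B z z w =
      M.num w / w * conj (M.pt w * (‖e‖ ^ 2 : ℝ) - inner ℂ e (B e)) := by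
    rw [coef, kop, ← hA, ContinuousLinearMap.smul_apply, hAi, inner_smul_right, ← he, hA,
      ← inner_conj_symm, pt]
    simp only [ContinuousLinearMap.coe_sub', Pi.sub_apply, ContinuousLinearMap.coe_smul',
      Pi.smul_apply, ContinuousLinearMap.one_apply, inner_sub_right, inner_smul_right,
      inner_self_eq_norm_sq_to_K, map_sub, map_mul, map_div₀]
    have hcw : conj w = w⁻¹ := (Complex.inv_eq_conj (mem_sphere_zero_iff_norm.mp hw)).symm
    have hw0 := sph_ne_zero hw
    simp only [map_pow, conj_ofReal, Complex.ofReal_pow, RCLike.ofReal_eq_complex_ofReal, hcw]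
    field_simp
  rw [this]; exact hrange w hw e

variable {q0 : ℂ[X]} {x y : H} {K : ℝ}

/-- A singular pair has equal diagonal coefficients. -/
lemma coef_pair_eq (hK : K ≠ 0) (hTx : aeval B q0 x = (K : ℂ) • y)
    (hTy : ContinuousLinearMap.adjoint (aeval B q0) y = (K : ℂ) • x)
    {w : ℂ} (hw : w ∈ sph) : M.coef B y y w = M.coef B x x w := by
  set T := aeval B q0
  obtain ⟨u, hu⟩ := hunit w (M.unit_mem hw)
  have hc : Commute T (M.fn w • (1 : H →L[ℂ] H) - w • B) := by
    have hTB : Commute T B := by
      have := (Commute.all q0 X).map (aeval B)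
      simpa using this
    exact ((Commute.one_right T).smul_right _).sub_right (hTB.smul_right _)
  have hc' : Commute T (M.kop B w) := by
    rw [kop, ← hu, Ring.inverse_unit]
    rw [← hu] at hc
    exact hc.units_inv_right.smul_right _
  have h1 : (K : ℂ) * M.coef B y y w = (K : ℂ) * M.coef B x x w := by
    calc (K : ℂ) * M.coef B y y w = inner ℂ y (M.kop B w ((K : ℂ) • y)) := by
          rw [map_smul, inner_smul_right]; rfl
      _ = inner ℂ y (T (M.kop B w x)) := by
          rw [← hTx]
          exact congrArg (fun S : H →L[ℂ] H => inner ℂ y (S x)) hc'.eq.symm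
      _ = inner ℂ ((K : ℂ) • x) (M.kop B w x) := by
          rw [← hTy, ContinuousLinearMap.adjoint_inner_left]
      _ = (K : ℂ) * M.coef B x x w := by rw [inner_smul_left, conj_ofReal]; rfl
  exact mul_left_cancel₀ (ofReal_ne_zero.mpr hK) h1

/-- The pointwise bound coming from positivity. -/
lemma off_diag_bound
    (hrange : ∀ w ∈ sph, ∀ e : H,
      0 ≤ (M.num w / w * conj (M.pt w * (‖e‖ ^ 2 : ℝ) - inner ℂ e (B e))).re)
    {w : ℂ} (hw : w ∈ sph) (heq : M.coef B y y w = M.coef B x x w) :
    ‖M.coef B y x w + conj (M.coef B x y w)‖ ≤ 2 * (M.coef B x x w).re := by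
  set s := M.coef B y x w + conj (M.coef B x y w) with hs
  have hx := M.coef_pos hunit hrange hw x
  by_cases h0 : s = 0
  · rw [h0, norm_zero]; linarith
  set θ := s / (‖s‖ : ℂ) with hθ
  have hn : (‖s‖ : ℂ) ≠ 0 := by simpa using h0
  have hθ1 : θ * conj θ = 1 := by
    rw [mul_conj, normSq_eq_norm_sq, hθ, norm_div, Complex.norm_real, norm_norm,
      div_self (norm_ne_zero_iff.mpr h0)]
    simp
  have hθs : (conj θ * s).re = ‖s‖ := by
    rw [hθ, map_div₀, conj_ofReal, div_mul_eq_mul_div, ← normSq_eq_conj_mul_self,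
      normSq_eq_norm_sq, ofReal_pow, sq, mul_div_assoc, div_self hn, mul_one, ofReal_re]
  have := M.coef_pos hunit hrange hw (x - θ • y)
  simp only [coef, map_sub, map_smul, inner_sub_left, inner_sub_right, inner_smul_left,
    inner_smul_right] at this
  simp only [coef] at heq hs hx ⊢
  rw [heq, mul_sub, ← mul_assoc θ, hθ1, one_mul] at this
  rw [hs] at hθs ⊢
  simp only [sub_re, mul_re, add_re, add_im, conj_re, conj_im] at this hθs
  linarith

/-- The L2 bound for the off-diagonal coefficient. -/
lemma av_off_bound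
    (hrange : ∀ w ∈ sph, ∀ e : H,
      0 ≤ (M.num w / w * conj (M.pt w * (‖e‖ ^ 2 : ℝ) - inner ℂ e (B e))).re)
    (hx : ‖x‖ = 1) (heq : ∀ w ∈ sph, M.coef B y y w = M.coef B x x w) :
    av (fun w => normSq (M.coef B y x w)) ≤ 2 * av (fun w => normSq (M.coef B x x w)) + 2 := by
  have hW := M.coef_cont hunit x x
  have ha := M.coef_cont hunit y x
  have hb := M.coef_cont hunit x y
  have hWd := M.coef_diff hunit x x
  have h1 : av (fun w => normSq (M.coef B y x w + conj (M.coef B x y w))) ≤
      av (fun w => 2 * normSq (M.coef B x x w) + 2 * (M.coef B x x w * M.coef B x x w).re) := by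
    refine av_mono (cns (ha.fun_add (ccj hb)))
      ((continuousOn_const.fun_mul (cns hW)).fun_add
        (continuousOn_const.fun_mul (cre (hW.fun_mul hW)))) fun w hw => ?_
    have h := M.off_diag_bound hunit hrange hw (heq w hw)
    have h' := pow_le_pow_left₀ (norm_nonneg _) h 2
    rw [← normSq_eq_norm_sq] at h'
    refine h'.trans (le_of_eq ?_)
    simp only [mul_re, normSq_apply]
    ring
  rw [av_add (continuousOn_const.fun_mul (cns hW)) (continuousOn_const.fun_mul (cre (hW.fun_mul hW))),
    av_rmul, av_rmul, av_re (hW.fun_mul hW),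
    av_holo M.one_lt_R (f := fun w => M.coef B x x w * M.coef B x x w) (hWd.mul hWd),
    M.coef_zero hunit, inner_self_eq_norm_sq_to_K, hx] at h1
  have h2 : av (fun w => normSq (M.coef B y x w)) ≤
      av (fun w => normSq (M.coef B y x w + conj (M.coef B x y w))) := by
    have e : av (fun w => normSq (M.coef B y x w + conj (M.coef B x y w))) =
        av (fun w => normSq (M.coef B y x w)) + av (fun w => normSq (M.coef B x y w)) +
          2 * (av (fun w => M.coef B y x w * M.coef B x y w)).re := by
      rw [← av_re (ha.fun_mul hb), ← av_rmul, ← av_add (cns ha) (cns hb),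
        ← av_add ((cns ha).fun_add (cns hb)) (continuousOn_const.fun_mul (cre (ha.fun_mul hb)))]
      apply av_congr
      intro w _
      simp only [normSq_add, normSq_conj, Complex.conj_conj]
    have hb0 : 0 ≤ av (fun w => normSq (M.coef B x y w)) := by
      have := av_mono (f := fun _ => (0:ℝ)) continuousOn_const
        (g := fun w => normSq (M.coef B x y w)) (cns hb) (fun _ _ => normSq_nonneg _)
      rwa [av_const] at this
    have hc : 0 ≤ (av (fun w => M.coef B y x w * M.coef B x y w)).re := by
      rw [av_holo M.one_lt_R (f := fun w => M.coef B y x w * M.coef B x y w)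
        ((M.coef_diff hunit y x).mul (M.coef_diff hunit x y)), M.coef_zero hunit,
        M.coef_zero hunit, ← inner_conj_symm x y, mul_conj, ofReal_re]
      exact normSq_nonneg _
    rw [e]; linarith
  simp at h1
  linarith

lemma core_poly (hker : ∀ w ∈ sph, ∀ v ∈ sph, 0 ≤ M.ker w v)
    (hTy : ContinuousLinearMap.adjoint (aeval B q0) y = (K : ℂ) • x)
    (hq0 : ∀ w ∈ sph, ‖q0.eval (M.pt w)‖ ≤ 1) (P : ℂ[X]) :
    2 * (K * (av (fun w => conj (P.eval w) * M.coef B x x w)).re) ≤
      2 * av (fun w => normSq (P.eval w)) - normSq (P.eval 0) +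
        av (fun w => normSq (M.coef B y x w)) := by
  set n := P.natDegree
  have hH : DifferentiableOn ℂ
      (fun w => ∑ k ∈ Finset.range (n + 1), conj (P.coeff k) * w ^ (n - k)) (ball 0 M.rad) := by
    fun_prop
  obtain ⟨q, E, hE, hE0, hq⟩ := M.exists_faber n _ hH
  have hq' : ∀ w ∈ sph, q.eval (M.pt w) = conj (P.eval w) + E w := by
    intro w hw
    have hw0 := sph_ne_zero hw
    rw [hq w (M.mem_rad (M.unit_mem hw)) hw0, Polynomial.eval_eq_sum_range, map_sum, Finset.sum_div]
    congr 1
    apply Finset.sum_congr rfl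
    intro k hk
    have hkn : k ≤ n := Nat.lt_succ_iff.mp (Finset.mem_range.mp hk)
    rw [map_mul, map_pow, ← Complex.inv_eq_conj (mem_sphere_zero_iff_norm.mp hw), inv_pow,
      pow_sub₀ _ hw0 hkn]
    field_simp
  have hP : DifferentiableOn ℂ (fun w => P.eval w) (ball 0 M.rad) :=
    P.differentiable.differentiableOn
  have hb := M.av_normSq_bound hker hP hE hE0 q hq'
  have hW := M.coef_cont hunit x x
  have ha := M.coef_cont hunit y x
  have hPc : ContinuousOn (fun w => P.eval w) sph := P.continuous.continuousOn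
  have hEc := holo_sph M.one_lt hE
  have hval : inner ℂ x (aeval B q x) = av (fun w => conj (P.eval w) * M.coef B x x w) := by
    rw [← M.av_poly_coef hunit q x x]
    have : av (fun w => q.eval (M.pt w) * M.coef B x x w) =
        av (fun w => conj (P.eval w) * M.coef B x x w + E w * M.coef B x x w) := by
      apply av_congr
      intro w hw
      simp only [hq' w hw, add_mul]
    rw [this, av_add ((ccj hPc).fun_mul hW) (hEc.fun_mul hW),
      av_holo M.one_lt_R (f := fun w => E w * M.coef B x x w)
        ((hE.mono fun _ => M.mem_rad).mul (M.coef_diff hunit x x)), hE0, zero_mul, add_zero]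
  have hprod : (K : ℂ) * av (fun w => conj (P.eval w) * M.coef B x x w) =
      av (fun w => (q0 * q).eval (M.pt w) * M.coef B y x w) := by
    rw [← hval, M.av_poly_coef hunit, map_mul, ContinuousLinearMap.mul_def,
      ContinuousLinearMap.coe_comp', Function.comp_apply,
      ← ContinuousLinearMap.adjoint_inner_left (aeval B q0), hTy, inner_smul_left, conj_ofReal]
  have hle : (av (fun w => (q0 * q).eval (M.pt w) * M.coef B y x w)).re ≤
      (1/2 : ℝ) * (av (fun w => normSq (q.eval (M.pt w))) +
        av (fun w => normSq (M.coef B y x w))) := by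
    rw [← av_add (cns (M.poly_pt_cont q)) (cns ha), ← av_rmul,
      ← av_re ((M.poly_pt_cont _).fun_mul ha)]
    refine av_mono (cre ((M.poly_pt_cont _).fun_mul ha))
      (continuousOn_const.fun_mul ((cns (M.poly_pt_cont q)).fun_add (cns ha))) fun w hw => ?_
    refine (Complex.re_le_norm _).trans ?_
    rw [eval_mul, norm_mul, norm_mul, normSq_eq_norm_sq, normSq_eq_norm_sq]
    have hh : ‖q0.eval (M.pt w)‖ * ‖q.eval (M.pt w)‖ ≤ ‖q.eval (M.pt w)‖ :=
      mul_le_of_le_one_left (norm_nonneg _) (hq0 w hw)
    have hh2 := mul_le_mul_of_nonneg_right hh (norm_nonneg (M.coef B y x w))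
    nlinarith [sq_nonneg (‖q.eval (M.pt w)‖ - ‖M.coef B y x w‖)]
  have := congrArg Complex.re hprod
  rw [re_ofReal_mul] at this
  rw [this]
  linarith

/-- Core theorem. -/
theorem singular_le_two (hconv : ∀ w ∈ sph, ∀ v ∈ sph,
      0 ≤ ((M.num w / w) * conj (M.pt w - M.pt v)).re)
    (hrange : ∀ w ∈ sph, ∀ e : H,
      0 ≤ (M.num w / w * conj (M.pt w * (‖e‖ ^ 2 : ℝ) - inner ℂ e (B e))).re)
    (hq0 : ∀ w ∈ sph, ‖q0.eval (M.pt w)‖ ≤ 1)
    (hx : ‖x‖ = 1) (hTx : aeval B q0 x = (K : ℂ) • y)
    (hTy : ContinuousLinearMap.adjoint (aeval B q0) y = (K : ℂ) • x) : K ≤ 2 := by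
  by_contra hK2
  push Not at hK2
  have hker : ∀ w ∈ sph, ∀ v ∈ sph, 0 ≤ M.ker w v := fun w hw v hv => M.ker_nonneg hconv hw hv
  have hKne : K ≠ 0 := by linarith
  have heq : ∀ w ∈ sph, M.coef B y y w = M.coef B x x w :=
    fun w hw => M.coef_pair_eq hunit hKne hTx hTy hw
  have hoff := M.av_off_bound hunit hrange hx heq
  set W := M.coef B x x with hWdef
  have hW : ContinuousOn W sph := M.coef_cont hunit x x
  have hWd : DifferentiableOn ℂ W (ball 0 M.R) := M.coef_diff hunit x x
  have hW0 : W 0 = 1 := by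
    rw [hWdef, M.coef_zero hunit, inner_self_eq_norm_sq_to_K, hx]; simp
  set Q := av (fun w => normSq (W w)) with hQ
  have hQ0 : 0 ≤ Q := by
    have := av_mono (f := fun _ => (0:ℝ)) continuousOn_const (g := fun w => normSq (W w))
      (cns hW) (fun _ _ => normSq_nonneg _)
    rwa [av_const] at this
  set U := fun w => W w + 1 with hU
  have hUc : ContinuousOn U sph := hW.fun_add continuousOn_const
  have hUW : (av (fun w => conj (U w) * W w)).re = Q + 1 := by
    have : av (fun w => conj (U w) * W w) = av (fun w => ((normSq (W w) : ℝ) : ℂ) + W w) := by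
      apply av_congr
      intro w _
      simp only [hU, map_add, map_one, normSq_eq_conj_mul_self]; ring
    have hn' : ContinuousOn (fun w => ((normSq (W w) : ℝ) : ℂ)) sph :=
      Complex.continuous_ofReal.comp_continuousOn (cns hW)
    rw [this, av_add hn' hW,
      av_ofReal (cns hW), av_holo M.one_lt_R hWd, hW0]
    simp [hQ]
  have hUU : av (fun w => normSq (U w)) = Q + 3 := by
    have : av (fun w => normSq (U w)) = av (fun w => normSq (W w) + (1 + 2 * (W w).re)) := by
      apply av_congr
      intro w _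
      simp only [hU, normSq_add, map_one, mul_one]; ring
    rw [this, av_add (cns hW) (continuousOn_const.fun_add (continuousOn_const.fun_mul (cre hW))),
      av_add continuousOn_const (continuousOn_const.fun_mul (cre hW)), av_const, av_rmul,
      av_re hW, av_holo M.one_lt_R hWd, hW0, ← hQ, one_re]
    ring
  -- bound on the sphere
  obtain ⟨C, hC⟩ := (isCompact_sphere (0:ℂ) 1).exists_bound_of_continuousOn (hUc.norm.add hW.norm)
  have hCw : ∀ w ∈ sph, ‖U w‖ ≤ C ∧ ‖W w‖ ≤ C := by
    intro w hw
    have := hC w hw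
    simp only [Pi.add_apply, Real.norm_eq_abs] at this
    rw [abs_of_nonneg (add_nonneg (norm_nonneg _) (norm_nonneg _))] at this
    exact ⟨by linarith [norm_nonneg (W w)], by linarith [norm_nonneg (U w)]⟩
  have hC0 : 0 ≤ C := le_trans (norm_nonneg _) (hCw 1 (by simp [sph])).1
  -- choose the approximation
  have hgap : 0 < (K - 2) * (Q + 1) := by nlinarith
  set ε := min 1 ((K - 2) * (Q + 1) / (2 * C + 1 + K * C + 1)) with hε
  have hε0 : 0 < ε := lt_min one_pos (div_pos hgap (by positivity))
  have hε1 : ε ≤ 1 := min_le_left _ _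
  have hεb : ε * (2 * C + 1 + K * C + 1) ≤ (K - 2) * (Q + 1) := by
    rw [← le_div_iff₀ (by positivity)]; exact min_le_right _ _
  obtain ⟨r, hr1, hrR⟩ := exists_between M.one_lt_R
  obtain ⟨r2, hr2, hr2R⟩ := exists_between hrR
  lift r to NNReal using le_trans zero_le_one hr1.le
  lift r2 to NNReal using le_trans r.2 hr2.le
  have hser := (hWd.mono (closedBall_subset_ball hr2R)).hasFPowerSeriesOnBall
    (lt_of_le_of_lt r.2 hr2)
  have hlt : (r : ENNReal) < (r2 : ENNReal) := ENNReal.coe_lt_coe.mpr (NNReal.coe_lt_coe.mp hr2)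
  obtain ⟨n, hn, hn1⟩ := ((Metric.tendstoUniformlyOn_iff.mp (hser.tendstoUniformlyOn hlt) ε hε0).and
    (eventually_ge_atTop 1)).exists
  set p := cauchyPowerSeries W 0 (r2 : ℝ) with hp
  set P : ℂ[X] := 1 + ∑ k ∈ Finset.range n, Polynomial.C (p.coeff k) * X ^ k with hPdef
  have hPev : ∀ w, P.eval w = 1 + p.partialSum n w := by
    intro w
    simp only [hPdef, eval_add, eval_one, eval_finsetSum, eval_mul, eval_C, eval_pow, eval_X,
      FormalMultilinearSeries.partialSum]
    congr 1
    refine Finset.sum_congr rfl fun k _ => ?_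
    rw [FormalMultilinearSeries.apply_eq_pow_smul_coeff, smul_eq_mul, mul_comm]
  have hP0 : P.eval 0 = 2 := by
    have hc0 : p.coeff 0 = 1 := by
      rw [FormalMultilinearSeries.coeff, hser.coeff_zero, hW0]
    have : (∑ k ∈ Finset.range n, p.coeff k * (0:ℂ) ^ k) = p.coeff 0 := by
      rw [Finset.sum_eq_single 0]
      · simp
      · intro k _ hk; simp [hk]
      · intro h; exact absurd (Finset.mem_range.mpr (by omega)) h
    simp only [hPdef, eval_add, eval_one, eval_finsetSum, eval_mul, eval_C, eval_pow, eval_X]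
    rw [this, hc0]; norm_num
  have hclose : ∀ w ∈ sph, ‖U w - P.eval w‖ ≤ ε := by
    intro w hw
    have hwr : w ∈ ball (0:ℂ) r := by
      rw [mem_ball_zero_iff, mem_sphere_zero_iff_norm.mp hw]; exact hr1
    have := (hn w hwr).le
    rw [dist_eq_norm, zero_add] at this
    rw [hPev, hU]
    simpa [add_comm] using this
  have hPc : ContinuousOn (fun w => P.eval w) sph := P.continuous.continuousOn
  have hb := M.core_poly hunit (x := x) (y := y) hker hTy hq0 P
  have h1 : av (fun w => normSq (P.eval w)) ≤ Q + 3 + ε * (2 * C + 1) := by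
    rw [← hUU, ← av_const (ε * (2 * C + 1)), ← av_add (cns hUc) continuousOn_const]
    refine av_mono (cns hPc) ((cns hUc).fun_add continuousOn_const) fun w hw => ?_
    rw [normSq_eq_norm_sq, normSq_eq_norm_sq]
    have h2 : ‖P.eval w‖ ≤ ‖U w‖ + ε := by
      linarith [norm_le_norm_add_norm_sub' (P.eval w) (U w), norm_sub_rev (P.eval w) (U w),
        hclose w hw]
    nlinarith [norm_nonneg (P.eval w), norm_nonneg (U w), (hCw w hw).1]
  have h2 : Q + 1 - ε * C ≤ (av (fun w => conj (P.eval w) * W w)).re := by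
    rw [← hUW, ← av_const (ε * C), ← av_re ((ccj hUc).fun_mul hW),
      ← av_re ((ccj hPc).fun_mul hW),
      ← av_sub (cre ((ccj hUc).fun_mul hW)) continuousOn_const]
    refine av_mono ((cre ((ccj hUc).fun_mul hW)).fun_sub continuousOn_const)
      (cre ((ccj hPc).fun_mul hW)) fun w hw => ?_
    have hd : ‖(conj (U w) - conj (P.eval w)) * W w‖ ≤ ε * C := by
      rw [norm_mul, ← map_sub, Complex.norm_conj]
      exact mul_le_mul (hclose w hw) (hCw w hw).2 (norm_nonneg _) hε0.le
    have hr := Complex.re_le_norm ((conj (U w) - conj (P.eval w)) * W w)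
    rw [sub_mul, sub_re] at hr
    rw [sub_mul] at hd
    linarith
  rw [hP0] at hb
  have h4 : normSq (2:ℂ) = 4 := by rw [normSq_ofNat]; norm_num
  rw [h4] at hb
  nlinarith [mul_le_mul_of_nonneg_left h2 (by linarith : (0:ℝ) ≤ K)]

end Vale.Agent.P123.ExtMap
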