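import Mathlib

/-
The Riemann mapping theorem for bounded open sets that are star shaped about the origin.
-/

open Complex Metric Set Filter Bornology
open scoped Topology ComplexConjugate

namespace Vale.Agent.P123.Riemann

/-- Hurwitz: a limit of nonvanishing holomorphic functions has no isolated zero. -/
lemma hurwitz {V : Set ℂ} (hV : IsOpen V) {F : ℕ → ℂ → ℂ} {g : ℂ → ℂ}
    (hF : ∀ n, DifferentiableOn ℂ (F n) V) (hne : ∀ n, ∀ z ∈ V, F n z ≠ 0)
    (hlim : TendstoLocallyUniformlyOn F g atTop V) {a : ℂ} (ha : a ∈ V) (hga : g a = 0) :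
    ∀ᶠ z in 𝓝 a, g z = 0 := by
  have hg : DifferentiableOn ℂ g V := hlim.differentiableOn (Eventually.of_forall hF) hV
  rcases (hg.analyticAt (hV.mem_nhds ha)).eventually_eq_zero_or_eventually_ne_zero with h | h
  · exact h
  exfalso
  obtain ⟨r, hr, hball⟩ := Metric.mem_nhds_iff.mp (inter_mem (hV.mem_nhds ha) (eventually_nhdsWithin_iff.mp h))
  set s := r / 2 with hs
  have hs0 : 0 < s := by positivity
  have hsub : closedBall a s ⊆ V := fun z hz =>
    (hball (closedBall_subset_ball (by linarith) hz)).1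
  obtain ⟨z0, hz0, hmin⟩ := (isCompact_sphere a s).exists_isMinOn
    (NormedSpace.sphere_nonempty.mpr hs0.le)
    ((hg.continuousOn.mono (sphere_subset_closedBall.trans hsub)).norm)
  have hm : 0 < ‖g z0‖ := by
    refine norm_pos_iff.mpr ((hball ?_).2 ?_)
    · exact closedBall_subset_ball (by linarith) (sphere_subset_closedBall hz0)
    · intro h; rw [mem_singleton_iff] at h; rw [h, mem_sphere, dist_self] at hz0; linarith
  set m := ‖g z0‖
  have hu := (tendstoLocallyUniformlyOn_iff_forall_isCompact hV).mp hlim (closedBall a s) hsub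
    (isCompact_closedBall a s)
  obtain ⟨n, hn⟩ := (Metric.tendstoUniformlyOn_iff.mp hu (m / 4) (by positivity)).exists
  have hd : DiffContOnCl ℂ (fun z => (F n z)⁻¹) (ball a s) :=
    ((hF n).inv (hne n)).mono hsub |>.diffContOnCl_ball Subset.rfl
  have hfr : ∀ z ∈ frontier (ball a s), ‖(F n z)⁻¹‖ ≤ 2 / m := by
    intro z hz
    rw [frontier_ball a hs0.ne'] at hz
    have h1 := hn z (sphere_subset_closedBall hz)
    have h2 : m ≤ ‖g z‖ := hmin hz
    rw [dist_eq_norm] at h1
    have h3 := norm_sub_norm_le (g z) (F n z)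
    rw [norm_inv, inv_le_comm₀ (norm_pos_iff.mpr (hne n z (hsub (sphere_subset_closedBall hz))))
      (by positivity), inv_div]
    linarith
  have := Complex.norm_le_of_forall_mem_frontier_norm_le isBounded_ball hd hfr
    (subset_closure (mem_ball_self hs0))
  have h1 := hn a (mem_closedBall_self hs0.le)
  rw [hga, dist_zero_left] at h1
  rw [norm_inv, inv_le_comm₀ (norm_pos_iff.mpr (hne n a ha)) (by positivity), inv_div] at this
  linarith

/-- Montel for uniformly bounded sequences. -/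
lemma montel {U : Set ℂ} (hU : IsOpen U) {F : ℕ → ℂ → ℂ}
    (hF : ∀ n, DifferentiableOn ℂ (F n) U) (hb : ∀ n, ∀ z ∈ U, ‖F n z‖ ≤ 1) :
    ∃ (φ : ℕ → ℕ) (g : ℂ → ℂ), StrictMono φ ∧
      TendstoLocallyUniformlyOn (fun n => F (φ n)) g atTop U := by
  classical
  set u := TopologicalSpace.denseSeq ℂ
  let x : ℕ → (ℕ → ℂ) := fun n k => if u k ∈ U then F n (u k) else 0
  have hx : ∀ n, x n ∈ Set.univ.pi (fun _ : ℕ => closedBall (0:ℂ) 1) := by
    intro n k _
    simp only [x, mem_closedBall_zero_iff]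
    split_ifs with h
    · exact hb n _ h
    · simp
  obtain ⟨L, -, φ, hφ, hlim⟩ :=
    (isCompact_univ_pi fun _ : ℕ => isCompact_closedBall (0:ℂ) 1).tendsto_subseq hx
  have hk : ∀ k, u k ∈ U → Tendsto (fun n => F (φ n) (u k)) atTop (𝓝 (L k)) := by
    intro k hk
    have := ((continuous_apply k).tendsto L).comp hlim
    simpa [x, hk, Function.comp_def] using this
  have lip : ∀ z, ∀ R : ℝ, ball z R ⊆ U → ∀ w ∈ ball z R, ∀ n,
      dist (F n w) (F n z) ≤ 2 / R * dist w z := by
    intro z R hR w hw n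
    refine Complex.dist_le_div_mul_dist_of_mapsTo_ball ((hF n).mono hR) ?_ hw
    intro v hv
    rw [mem_closedBall, dist_eq_norm]
    have hz : z ∈ U := hR (mem_ball_self (lt_of_le_of_lt dist_nonneg hw))
    linarith [norm_sub_le (F n v) (F n z), hb n v (hR hv), hb n z hz]
  have hc : ∀ z ∈ U, ∃ l, Tendsto (fun n => F (φ n) z) atTop (𝓝 l) := by
    intro z hz
    apply cauchySeq_tendsto_of_complete
    rw [Metric.cauchySeq_iff]
    intro ε hε
    obtain ⟨R, hR, hsub⟩ := Metric.isOpen_iff.mp hU z hz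
    obtain ⟨k, hk'⟩ := (TopologicalSpace.denseRange_denseSeq ℂ).exists_dist_lt z
      (show 0 < min R (ε * R / 8) by positivity)
    have hkR : u k ∈ ball z R := by
      rw [mem_ball, dist_comm]; exact lt_of_lt_of_le hk' (min_le_left _ _)
    obtain ⟨N, hN⟩ := Metric.cauchySeq_iff.mp (hk k (hsub hkR)).cauchySeq (ε / 4) (by positivity)
    have hl : ∀ n, dist (F n (u k)) (F n z) ≤ ε / 4 := by
      intro n
      refine (lip z R hsub _ hkR n).trans ?_
      rw [dist_comm] at hk'
      have h1 : dist (u k) z ≤ ε * R / 8 := hk'.le.trans (min_le_right _ _)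
      calc 2 / R * dist (u k) z ≤ 2 / R * (ε * R / 8) := by gcongr
        _ = ε / 4 := by field_simp; norm_num
    refine ⟨N, fun m hm n hn => ?_⟩
    have := dist_triangle4 (F (φ m) z) (F (φ m) (u k)) (F (φ n) (u k)) (F (φ n) z)
    linarith [hl (φ m), hl (φ n), hN m hm n hn, dist_comm (F (φ m) z) (F (φ m) (u k))]
  choose! g hg using hc
  refine ⟨φ, g, hφ, Metric.tendstoLocallyUniformlyOn_iff.mpr fun ε hε z hz => ?_⟩
  obtain ⟨R, hR, hsub⟩ := Metric.isOpen_iff.mp hU z hz
  refine ⟨ball z (min R (ε * R / 8)), mem_nhdsWithin_of_mem_nhds (ball_mem_nhds z (by positivity)), ?_⟩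
  filter_upwards [Metric.tendsto_nhds.mp (hg z hz) (ε / 4) (by positivity)] with n hn
  intro w hw
  have hwR : w ∈ ball z R := ball_subset_ball (min_le_left _ _) hw
  have hl : ∀ j, dist (F j w) (F j z) ≤ ε / 4 := by
    intro j
    refine (lip z R hsub w hwR j).trans ?_
    have h1 : dist w z ≤ ε * R / 8 := (mem_ball.mp hw).le.trans (min_le_right _ _)
    calc 2 / R * dist w z ≤ 2 / R * (ε * R / 8) := by gcongr
      _ = ε / 4 := by field_simp; norm_num
  have hgl : dist (g w) (g z) ≤ ε / 4 :=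
    le_of_tendsto ((hg w (hsub hwR)).dist (hg z hz)) (Eventually.of_forall fun j => hl (φ j))
  have := dist_triangle4 (g w) (g z) (F (φ n) z) (F (φ n) w)
  linarith [hl (φ n), dist_comm (F (φ n) z) (g z), dist_comm (F (φ n) z) (F (φ n) w)]

/-- Disc automorphism. -/
noncomputable def mob (a z : ℂ) : ℂ := (z - a) / (1 - conj a * z)

lemma mob_den {a z : ℂ} (ha : ‖a‖ < 1) (hz : ‖z‖ < 1) : 1 - conj a * z ≠ 0 := by
  intro h
  have h1 : ‖conj a * z‖ = 1 := by rw [← sub_eq_zero.mp h, norm_one]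
  rw [norm_mul, Complex.norm_conj] at h1
  nlinarith [norm_nonneg a, norm_nonneg z]

lemma mob_mem {a z : ℂ} (ha : ‖a‖ < 1) (hz : ‖z‖ < 1) : ‖mob a z‖ < 1 := by
  rw [mob, norm_div, div_lt_one (norm_pos_iff.mpr (mob_den ha hz))]
  apply lt_of_pow_lt_pow_left₀ 2 (norm_nonneg _)
  rw [← normSq_eq_norm_sq, ← normSq_eq_norm_sq]
  have ha' : normSq a < 1 := by rw [normSq_eq_norm_sq]; nlinarith [norm_nonneg a]
  have hz' : normSq z < 1 := by rw [normSq_eq_norm_sq]; nlinarith [norm_nonneg z]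
  simp only [normSq_apply, sub_re, sub_im, one_re, one_im, mul_re, mul_im, conj_re, conj_im] at *
  nlinarith [mul_pos (sub_pos.mpr ha') (sub_pos.mpr hz')]

lemma mob_hasDerivAt {a z : ℂ} (ha : ‖a‖ < 1) (hz : ‖z‖ < 1) :
    HasDerivAt (mob a) ((1 - conj a * a) / (1 - conj a * z) ^ 2) z := by
  refine (((hasDerivAt_id z).sub_const a).div (((hasDerivAt_id z).const_mul (conj a)).const_sub 1)
    (mob_den ha hz)).congr_deriv ?_
  simp only [id_eq]
  congr 1
  ring

lemma mob_deriv_ne {a z : ℂ} (ha : ‖a‖ < 1) (hz : ‖z‖ < 1) :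
    (1 - conj a * a) / (1 - conj a * z) ^ 2 ≠ 0 :=
  div_ne_zero (mob_den ha ha) (pow_ne_zero _ (mob_den ha hz))

lemma mob_inj {a z z' : ℂ} (ha : ‖a‖ < 1) (hz : ‖z‖ < 1) (hz' : ‖z'‖ < 1)
    (h : mob a z = mob a z') : z = z' := by
  rw [mob, mob, div_eq_div_iff (mob_den ha hz) (mob_den ha hz')] at h
  have : (z - z') * (1 - conj a * a) = 0 := by linear_combination h
  rcases mul_eq_zero.mp this with h1 | h1
  · exact sub_eq_zero.mp h1
  · exact absurd h1 (mob_den ha ha)

/-- The competitors in the extremal problem. -/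
structure Cand (D : Set ℂ) (f : ℂ → ℂ) : Prop where
  diff : DifferentiableOn ℂ f D
  maps : MapsTo f D (ball 0 1)
  inj : InjOn f D
  zero : f 0 = 0
  deriv_ne : ∀ z ∈ D, deriv f z ≠ 0

/-- Koebe's step: a candidate that is not onto can be improved. -/
lemma improve {D : Set ℂ} (hDo : IsOpen D) (hsc : IsSimplyConnected D) (h0 : (0:ℂ) ∈ D)
    {f : ℂ → ℂ} (hf : Cand D f) {w : ℂ} (hw : ‖w‖ < 1) (hmiss : ∀ z ∈ D, f z ≠ w) :
    ∃ f', Cand D f' ∧ ‖deriv f 0‖ < ‖deriv f' 0‖ := by
  have hm : ∀ z ∈ D, ‖f z‖ < 1 := fun z hz => mem_ball_zero_iff.mp (hf.maps hz)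
  set h := fun z => mob w (f z) with hh
  have hd : ∀ z ∈ D, HasDerivAt h ((1 - conj w * w) / (1 - conj w * f z) ^ 2 * deriv f z) z :=
    fun z hz => (mob_hasDerivAt hw (hm z hz)).comp z
      (hf.diff.differentiableAt (hDo.mem_nhds hz)).hasDerivAt
  have hne : ∀ z ∈ D, h z ≠ 0 := fun z hz =>
    div_ne_zero (sub_ne_zero.mpr (hmiss z hz)) (mob_den hw (hm z hz))
  obtain ⟨g, hgc, hg⟩ := Complex.exists_continuousOn_pow_eq hsc hDo (g := h)
    (fun z hz => (hd z hz).continuousAt.continuousWithinAt)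
    (by rintro ⟨z, hz, hz0⟩; exact hne z hz hz0) two_ne_zero
  have hgne : ∀ z ∈ D, g z ≠ 0 := fun z hz h0' => hne z hz (by rw [← hg z, h0']; simp)
  have hgm : ∀ z ∈ D, ‖g z‖ < 1 := fun z hz => by
    have : ‖g z‖ ^ 2 < 1 := by rw [← norm_pow, hg]; exact mob_mem hw (hm z hz)
    exact (pow_lt_one_iff_of_nonneg (norm_nonneg _) two_ne_zero).mp this
  have hgd : ∀ z ∈ D, HasDerivAt g
      ((1 - conj w * w) / (1 - conj w * f z) ^ 2 * deriv f z / (g z + g z)) z := by
    intro z hz
    rw [hasDerivAt_iff_tendsto_slope]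
    have hcont : Tendsto (fun y => g y + g z) (𝓝[≠] z) (𝓝 (g z + g z)) :=
      ((hgc.continuousAt (hDo.mem_nhds hz)).tendsto.mono_left nhdsWithin_le_nhds).add_const _
    have hgz : g z + g z ≠ 0 := by rw [← two_mul]; exact mul_ne_zero two_ne_zero (hgne z hz)
    refine (Tendsto.div (hasDerivAt_iff_tendsto_slope.mp (hd z hz)) hcont hgz).congr' ?_
    filter_upwards [hcont.eventually_ne hgz] with y hy
    rw [Pi.div_apply, slope_def_field, slope_def_field, ← hg y, ← hg z]
    field_simp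
    ring
  set b := g 0 with hb
  have hbn : ‖b‖ < 1 := hgm 0 h0
  set f' := fun z => mob b (g z) with hf'
  have hd' : ∀ z ∈ D, HasDerivAt f' ((1 - conj b * b) / (1 - conj b * g z) ^ 2 *
      ((1 - conj w * w) / (1 - conj w * f z) ^ 2 * deriv f z / (g z + g z))) z :=
    fun z hz => (mob_hasDerivAt hbn (hgm z hz)).comp z (hgd z hz)
  refine ⟨f', ⟨fun z hz => (hd' z hz).differentiableAt.differentiableWithinAt, ?_, ?_, ?_, ?_⟩, ?_⟩
  · exact fun z hz => mem_ball_zero_iff.mpr (mob_mem hbn (hgm z hz))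
  · intro z hz z' hz' he
    have h1 := mob_inj hbn (hgm z hz) (hgm z' hz') he
    have h2 : h z = h z' := by rw [← hg z, ← hg z', h1]
    exact hf.inj hz hz' (mob_inj hw (hm z hz) (hm z' hz') h2)
  · simp [hf', hb, mob]
  · intro z hz
    rw [(hd' z hz).deriv]
    refine mul_ne_zero (mob_deriv_ne hbn (hgm z hz)) (div_ne_zero
      (mul_ne_zero (mob_deriv_ne hw (hm z hz)) (hf.deriv_ne z hz)) ?_)
    rw [← two_mul]; exact mul_ne_zero two_ne_zero (hgne z hz)
  · rw [(hd' 0 h0).deriv, hf.zero, ← hb, mul_zero, sub_zero, one_pow, div_one]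
    have hb2 : b ^ 2 = -w := by
      rw [hb, hg 0, hh]; simp [mob, hf.zero]
    have hb0 : b ≠ 0 := hgne 0 h0
    have hden : 1 - conj b * b ≠ 0 := mob_den hbn hbn
    have hww : conj w * w = (conj b * b) ^ 2 := by
      rw [show w = -(b ^ 2) by rw [hb2, neg_neg]]; simp only [map_neg, map_pow]; ring
    have e : (1 - conj b * b) / (1 - conj b * b) ^ 2 * ((1 - conj w * w) * deriv f 0 / (b + b)) =
        ((1 + conj b * b) / (2 * b)) * deriv f 0 := by
      rw [hww]; field_simp; ring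
    rw [e, norm_mul, norm_div, norm_mul, Complex.norm_two, ← normSq_eq_conj_mul_self,
      normSq_eq_norm_sq, ← ofReal_one, ← ofReal_add, Complex.norm_real, Real.norm_eq_abs,
      abs_of_pos (by positivity)]
    have hbp : 0 < ‖b‖ := norm_pos_iff.mpr hb0
    apply lt_mul_of_one_lt_left (norm_pos_iff.mpr (hf.deriv_ne 0 h0))
    rw [one_lt_div (by positivity)]
    nlinarith [sq_pos_of_pos (sub_pos.mpr hbn)]

/-- Riemann mapping theorem for bounded star shaped domains. -/
theorem exists_riemann {D : Set ℂ} (hDo : IsOpen D) (hstar : StarConvex ℝ (0:ℂ) D)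
    (h0 : (0:ℂ) ∈ D) (hbd : IsBounded D) :
    ∃ f : ℂ → ℂ, Cand D f ∧ SurjOn f D (ball 0 1) := by
  have hne : D.Nonempty := ⟨0, h0⟩
  have hsc : IsSimplyConnected D := by
    have := hstar.contractibleSpace hne
    exact inferInstanceAs (SimplyConnectedSpace D)
  have hconn : IsPreconnected D := (hsc.isPathConnected).isConnected.isPreconnected
  obtain ⟨r0, hr0, hr0D⟩ := Metric.isOpen_iff.mp hDo 0 h0
  obtain ⟨R, hR0, hR⟩ := hbd.exists_pos_norm_lt
  set S := {t : ℝ | ∃ f, Cand D f ∧ t = ‖deriv f 0‖} with hS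
  have hbound : BddAbove S := by
    refine ⟨1 / r0, ?_⟩
    rintro t ⟨f, hf, rfl⟩
    refine Complex.norm_deriv_le_div_of_mapsTo_ball (hf.diff.mono hr0D) ?_ hr0
    intro z hz
    rw [hf.zero]; exact ball_subset_closedBall (hf.maps (hr0D hz))
  have hlin : Cand D (fun z => z * (R:ℂ)⁻¹) := by
    have hRc : (R:ℂ) ≠ 0 := by simpa using hR0.ne'
    refine ⟨by fun_prop, ?_, fun z _ z' _ h => mul_right_cancel₀ (inv_ne_zero hRc) h, by simp,
      fun z _ => ?_⟩
    · intro z hz
      rw [mem_ball_zero_iff, norm_mul, norm_inv, Complex.norm_real, Real.norm_eq_abs,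
        abs_of_pos hR0, ← div_eq_mul_inv, div_lt_one hR0]
      exact hR z hz
    · rw [deriv_mul_const differentiableAt_id, deriv_id'', one_mul]; exact inv_ne_zero hRc
  have hSne : S.Nonempty := ⟨_, _, hlin, rfl⟩
  obtain ⟨t, -, ht, htS⟩ := exists_seq_tendsto_sSup hSne hbound
  choose F hF htF using htS
  have hFd : ∀ n, DifferentiableOn ℂ (F n) D := fun n => (hF n).diff
  obtain ⟨φ, g, hφ, hlim⟩ := montel hDo hFd
    (fun n z hz => (mem_ball_zero_iff.mp ((hF n).maps hz)).le)
  have hgd : DifferentiableOn ℂ g D := hlim.differentiableOn (Eventually.of_forall fun n => hFd _) hDo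
  have hpt : ∀ z ∈ D, Tendsto (fun n => F (φ n) z) atTop (𝓝 (g z)) := fun z hz => hlim.tendsto_at hz
  have hg0 : g 0 = 0 := by
    refine tendsto_nhds_unique (hpt 0 h0) ?_
    simp [(hF _).zero]
  have hderiv := hlim.deriv (Eventually.of_forall fun n => hFd (φ n)) hDo
  have hnorm : ‖deriv g 0‖ = sSup S := by
    refine tendsto_nhds_unique (hderiv.tendsto_at h0).norm ?_
    have := ht.comp hφ.tendsto_atTop
    simpa only [Function.comp_def, htF] using this
  have hpos : 0 < sSup S :=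
    lt_of_lt_of_le (norm_pos_iff.mpr (hlin.deriv_ne 0 h0)) (le_csSup hbound ⟨_, hlin, rfl⟩)
  have hd0 : deriv g 0 ≠ 0 := by rw [← norm_pos_iff, hnorm]; exact hpos
  have hnotconst : ∀ a ∈ D, ∀ c : ℂ, ¬ ∀ᶠ z in 𝓝 a, g z = c := by
    intro a ha c hc
    have he := (hgd.analyticOnNhd hDo).eqOn_of_preconnected_of_eventuallyEq analyticOnNhd_const
      hconn ha hc
    apply hd0
    have : g =ᶠ[𝓝 0] fun _ => c := eventually_of_mem (hDo.mem_nhds h0) he
    rw [this.deriv_eq, deriv_const]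
  have hopen : IsOpen (g '' D) := by
    rcases (hgd.analyticOnNhd hDo).is_constant_or_isOpen hconn with ⟨c, hc⟩ | h
    · exact absurd (eventually_of_mem (hDo.mem_nhds h0) hc) (hnotconst 0 h0 c)
    · exact h D Subset.rfl hDo
  have hcand : Cand D g := by
    refine ⟨hgd, ?_, ?_, hg0, ?_⟩
    · intro z hz
      have hsub : g '' D ⊆ closedBall 0 1 := by
        rintro _ ⟨y, hy, rfl⟩
        rw [mem_closedBall_zero_iff]
        exact le_of_tendsto (hpt y hy).norm (Eventually.of_forall fun n =>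
          (mem_ball_zero_iff.mp ((hF _).maps hy)).le)
      have := interior_maximal hsub hopen ⟨z, hz, rfl⟩
      rwa [interior_closedBall _ one_ne_zero] at this
    · intro a ha b hb hab
      by_contra hne'
      have hV : IsOpen (D \ {b}) := hDo.sdiff isClosed_singleton
      have hzero := hurwitz hV (F := fun n z => F (φ n) z - F (φ n) b) (g := fun z => g z - g b)
        (fun n => ((hFd _).mono sdiff_subset).sub_const _)
        (fun n z hz => sub_ne_zero.mpr fun h => hz.2 ((hF _).inj hz.1 hb h))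
        ((hlim.mono sdiff_subset).sub (Metric.tendstoLocallyUniformlyOn_iff.mpr fun ε hε z _ =>
          ⟨univ, univ_mem, by
            filter_upwards [Metric.tendsto_nhds.mp (hpt b hb) ε hε] with n hn
            intro y _; rw [dist_comm]; exact hn⟩))
        ⟨ha, hne'⟩ (sub_eq_zero.mpr hab)
      exact hnotconst a ha (g b) (hzero.mono fun z hz => sub_eq_zero.mp hz)
    · intro a ha h
      have hzero := hurwitz hDo (F := fun n => deriv (F (φ n))) (g := deriv g)
        (fun n => (hFd _).deriv hDo) (fun n z hz => (hF _).deriv_ne z hz) hderiv ha h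
      exact hd0 ((((hgd.deriv hDo).analyticOnNhd hDo).eqOn_of_preconnected_of_eventuallyEq
        analyticOnNhd_const hconn ha hzero) h0)
  refine ⟨g, hcand, fun w hw => ?_⟩
  by_contra hmem
  obtain ⟨f', hf', hlt⟩ := improve hDo hsc h0 hcand (mem_ball_zero_iff.mp hw)
    (fun z hz he => hmem ⟨z, hz, he⟩)
  have := le_csSup hbound ⟨f', hf', rfl⟩
  rw [hnorm] at hlt
  linarith

end Vale.Agent.P123.Riemann
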