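import Vale.Agent.P123.Kernel
import Vale.Agent.P123.RiemannMap

/-
Exterior maps of compact convex bodies: their level curves are convex and approximate the body.
-/

open Complex Metric Set Filter Bornology
open scoped Topology ComplexConjugate

namespace Vale.Agent.P123.Exterior

/-- The inverted complement of `S` about `c`. -/
def dom (S : Set ℂ) (c : ℂ) : Set ℂ := {u : ℂ | u ≠ 0 → c + u⁻¹ ∉ S}

variable {S : Set ℂ} {c : ℂ}

lemma zero_mem_dom : (0:ℂ) ∈ dom S c := fun h => absurd rfl h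

lemma far {Rs : ℝ} (hR : ∀ z ∈ S, ‖z‖ ≤ Rs) (hne : S.Nonempty) {u : ℂ} :
    ‖u⁻¹‖ - ‖c‖ - Rs ≤ infDist (c + u⁻¹) S := by
  rw [le_infDist hne]
  intro z hz
  rw [dist_eq_norm]
  have h1 := norm_sub_norm_le (u⁻¹) (z - c)
  have h2 : u⁻¹ - (z - c) = c + u⁻¹ - z := by ring
  rw [h2] at h1
  linarith [norm_sub_le z c, hR z hz]

lemma dom_open (hS : IsCompact S) : IsOpen (dom S c) := by
  obtain ⟨Rs, hRs0, hRs⟩ := hS.isBounded.exists_pos_norm_le
  rw [isOpen_iff_mem_nhds]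
  intro u hu
  by_cases h0 : u = 0
  · subst h0
    refine mem_of_superset (ball_mem_nhds (0:ℂ) (show 0 < 1 / (Rs + ‖c‖ + 1) by positivity)) ?_
    intro v hv hv0 hmem
    have hlt : Rs + ‖c‖ + 1 < ‖v⁻¹‖ := by
      rw [norm_inv, lt_inv_comm₀ (by positivity) (norm_pos_iff.mpr hv0)]
      simpa using mem_ball_zero_iff.mp hv
    have h1 := far (c := c) hRs ⟨_, hmem⟩ (u := v)
    rw [infDist_zero_of_mem hmem] at h1
    linarith
  · have hc : ContinuousAt (fun v => c + v⁻¹) u := continuousAt_const.add (continuousAt_inv₀ h0)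
    exact mem_of_superset (hc.preimage_mem_nhds (hS.isClosed.isOpen_compl.mem_nhds (hu h0)))
      (fun v hv _ => hv)

lemma dom_star (hconv : Convex ℝ S) (hcS : c ∈ S) : StarConvex ℝ (0:ℂ) (dom S c) := by
  intro u hu a b ha hb hab
  simp only [smul_zero, zero_add]
  intro h0 hmem
  rcases smul_ne_zero_iff.mp h0 with ⟨hb0, hu0⟩
  apply hu hu0
  have hb1 : b ≤ 1 := by linarith
  have := hconv hcS hmem (sub_nonneg.mpr hb1) hb (by ring)
  convert this using 1
  simp only [Complex.real_smul, Complex.ofReal_sub, Complex.ofReal_one]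
  have : (b : ℂ) ≠ 0 := by simpa using hb0
  field_simp
  ring

lemma dom_bounded {e : ℝ} (he : 0 < e) (hball : closedBall c e ⊆ S) : IsBounded (dom S c) := by
  refine (isBounded_closedBall (x := (0:ℂ)) (r := 1 / e)).subset fun u hu => ?_
  rw [mem_closedBall_zero_iff]
  by_cases h0 : u = 0
  · subst h0; simp only [norm_zero]; positivity
  by_contra h
  push Not at h
  refine hu h0 (hball ?_)
  rw [mem_closedBall, dist_eq_norm, add_sub_cancel_left, norm_inv,
    inv_le_comm₀ (norm_pos_iff.mpr h0) he]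
  rw [one_div] at h; exact h.le

/-- The hypotheses on the body together with a Riemann map of its inverted complement. -/
structure Body where
  S : Set ℂ
  c : ℂ
  e : ℝ
  compact : IsCompact S
  conv : Convex ℝ S
  e_pos : 0 < e
  ball_sub : closedBall c e ⊆ S
  f : ℂ → ℂ
  cand : Riemann.Cand (dom S c) f
  surj : SurjOn f (dom S c) (ball 0 1)

namespace Body

variable (B : Body)

abbrev D : Set ℂ := dom B.S B.c

lemma c_mem : B.c ∈ B.S := B.ball_sub (mem_closedBall_self B.e_pos.le)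

lemma nonempty : B.S.Nonempty := ⟨_, B.c_mem⟩

noncomputable def G : ℂ → ℂ := Function.invFunOn B.f B.D

lemma G_mem {w : ℂ} (hw : w ∈ ball (0:ℂ) 1) : B.G w ∈ B.D := Function.invFunOn_mem (B.surj hw)

lemma f_G {w : ℂ} (hw : w ∈ ball (0:ℂ) 1) : B.f (B.G w) = w := Function.invFunOn_eq (B.surj hw)

lemma G_f {u : ℂ} (hu : u ∈ B.D) : B.G (B.f u) = u :=
  B.cand.inj (B.G_mem (B.cand.maps hu)) hu (B.f_G (B.cand.maps hu))

lemma zero_mem_ball : (0:ℂ) ∈ ball (0:ℂ) 1 := mem_ball_self one_pos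

lemma G_zero : B.G 0 = 0 := by
  have := B.G_f (zero_mem_dom (S := B.S) (c := B.c))
  rwa [B.cand.zero] at this

lemma G_ne {w : ℂ} (hw : w ∈ ball (0:ℂ) 1) (h0 : w ≠ 0) : B.G w ≠ 0 := fun h => h0 (by
  have := B.f_G hw; rw [h, B.cand.zero] at this; exact this.symm)

lemma G_continuousAt {w : ℂ} (hw : w ∈ ball (0:ℂ) 1) : ContinuousAt B.G w := by
  have hDo := dom_open (c := B.c) B.compact
  intro N hN
  obtain ⟨O, hON, hOo, hwO⟩ := _root_.mem_nhds_iff.mp (inter_mem hN (hDo.mem_nhds (B.G_mem hw)))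
  have hpre : IsPreconnected B.D :=
    ((dom_star B.conv B.c_mem).isPathConnected
      (zero_mem_dom (S := B.S) (c := B.c))).isConnected.isPreconnected
  have hopen : IsOpen (B.f '' O) := by
    rcases (B.cand.diff.analyticOnNhd hDo).is_constant_or_isOpen hpre with ⟨k, hk⟩ | h
    · exfalso
      apply B.cand.deriv_ne 0 zero_mem_dom
      have : B.f =ᶠ[𝓝 0] fun _ => k := eventually_of_mem (hDo.mem_nhds zero_mem_dom) hk
      rw [this.deriv_eq, deriv_const]
    · exact h O (fun x hx => (hON hx).2) hOo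
  rw [Filter.mem_map]
  refine mem_of_superset (hopen.mem_nhds ⟨_, hwO, B.f_G hw⟩) ?_
  rintro _ ⟨x, hx, rfl⟩
  rw [mem_preimage, B.G_f (hON hx).2]
  exact (hON hx).1

lemma f_hasDerivAt {u : ℂ} (hu : u ∈ B.D) : HasDerivAt B.f (deriv B.f u) u :=
  (B.cand.diff.differentiableAt ((dom_open B.compact).mem_nhds hu)).hasDerivAt

lemma G_hasDerivAt {w : ℂ} (hw : w ∈ ball (0:ℂ) 1) :
    HasDerivAt B.G (deriv B.f (B.G w))⁻¹ w :=
  HasDerivAt.of_local_left_inverse (B.G_continuousAt hw) (B.f_hasDerivAt (B.G_mem hw))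
    (B.cand.deriv_ne _ (B.G_mem hw)) (eventually_of_mem (isOpen_ball.mem_nhds hw) fun _ h => B.f_G h)

lemma G_diff : DifferentiableOn ℂ B.G (ball 0 1) :=
  fun _ hw => (B.G_hasDerivAt hw).differentiableAt.differentiableWithinAt

noncomputable def gam : ℂ → ℂ := dslope B.G 0

lemma gam_mul (w : ℂ) : w * B.gam w = B.G w := by
  have := sub_smul_dslope B.G 0 w
  simpa [B.G_zero, gam, smul_eq_mul] using this

lemma gam_ne {w : ℂ} (hw : w ∈ ball (0:ℂ) 1) : B.gam w ≠ 0 := by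
  by_cases h : w = 0
  · subst h
    rw [gam, dslope_same, (B.G_hasDerivAt hw).deriv]
    exact inv_ne_zero (B.cand.deriv_ne _ (B.G_mem hw))
  · intro h'
    have := B.gam_mul w
    rw [h', mul_zero] at this
    exact B.G_ne hw h this.symm

lemma gam_diff : DifferentiableOn ℂ B.gam (ball 0 1) :=
  (differentiableOn_dslope (isOpen_ball.mem_nhds (mem_ball_self one_pos))).mpr B.G_diff

/-- The exterior map. -/
noncomputable def zmap (w : ℂ) : ℂ := B.c + (B.G w)⁻¹

lemma zmap_notMem {w : ℂ} (hw : w ∈ ball (0:ℂ) 1) (h0 : w ≠ 0) : B.zmap w ∉ B.S :=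
  B.G_mem hw (B.G_ne hw h0)

lemma zmap_near {δ : ℝ} (hδ : 0 < δ) :
    ∃ r < 1, ∀ w : ℂ, r < ‖w‖ → ‖w‖ < 1 → infDist (B.zmap w) B.S < δ := by
  set A := {u ∈ B.D | u ≠ 0 → δ ≤ infDist (B.c + u⁻¹) B.S} with hA
  have hb : IsBounded A := (dom_bounded B.e_pos B.ball_sub).subset fun u hu => hu.1
  have hcl : IsClosed A := by
    have hE : A = {u : ℂ | u ≠ 0 → δ ≤ infDist (B.c + u⁻¹) B.S} := by
      ext u
      refine ⟨fun h => h.2, fun h => ⟨fun h0 hm => ?_, h⟩⟩
      have := h h0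
      rw [infDist_zero_of_mem hm] at this
      linarith
    rw [hE, ← isOpen_compl_iff, isOpen_iff_mem_nhds]
    intro u hu
    simp only [mem_compl_iff, mem_setOf_eq, Classical.not_imp, not_le] at hu
    have hc : ContinuousAt (fun v => infDist (B.c + v⁻¹) B.S) u :=
      (continuous_infDist_pt B.S).continuousAt.comp
        (continuousAt_const.add (continuousAt_inv₀ hu.1))
    filter_upwards [hc.eventually_lt continuousAt_const hu.2, eventually_ne_nhds hu.1] with v h1 h2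
    simp only [mem_compl_iff, mem_setOf_eq, Classical.not_imp, not_le]
    exact ⟨h2, h1⟩
  have hcpt : IsCompact A := Metric.isCompact_of_isClosed_isBounded hcl hb
  have hfA : ContinuousOn B.f A := B.cand.diff.continuousOn.mono fun u hu => hu.1
  obtain ⟨u0, hu0, hmax⟩ := hcpt.exists_isMaxOn ⟨0, zero_mem_dom, fun h => absurd rfl h⟩ hfA.norm
  refine ⟨‖B.f u0‖, mem_ball_zero_iff.mp (B.cand.maps hu0.1), fun w hw hw1 => ?_⟩
  by_contra h
  push Not at h
  have hwb : w ∈ ball (0:ℂ) 1 := mem_ball_zero_iff.mpr hw1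
  have hmem : B.G w ∈ A := ⟨B.G_mem hwb, fun _ => h⟩
  have h' : ‖B.f (B.G w)‖ ≤ ‖B.f u0‖ := hmax hmem
  rw [B.f_G hwb] at h'
  linarith

/-- Maximum principle comparison. -/
lemma radial {Z : ℂ → ℂ} (hZ : DifferentiableOn ℂ Z (ball 0 1)) (hZ0 : Z 0 ≠ 0)
    (hnear : ∀ δ > 0, ∃ r < 1, ∀ w : ℂ, r < ‖w‖ → ‖w‖ < 1 → infDist (B.c + Z w / w) B.S < δ)
    {w : ℂ} (hw : ‖w‖ < 1) (hw0 : w ≠ 0) (hout : B.c + Z w / w ∉ B.S) :
    ‖w‖ ≤ ‖B.f (w / Z w)‖ := by
  have hZw : Z w ≠ 0 := fun h => hout (by simpa [h] using B.c_mem)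
  have hJD : w / Z w ∈ B.D := fun _ => by rwa [inv_div]
  have hF1 : ‖B.f (w / Z w)‖ < 1 := mem_ball_zero_iff.mp (B.cand.maps hJD)
  have hlim : Tendsto (fun s : ℝ => ‖B.f (w / Z w)‖ / s) (𝓝[<] 1) (𝓝 ‖B.f (w / Z w)‖) := by
    have : ContinuousAt (fun s : ℝ => ‖B.f (w / Z w)‖ / s) 1 :=
      continuousAt_const.div continuousAt_id one_ne_zero
    simpa using this.tendsto.mono_left nhdsWithin_le_nhds
  refine ge_of_tendsto hlim ?_
  filter_upwards [Ioo_mem_nhdsLT hF1] with s hs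
  have hs0 : 0 < s := lt_of_le_of_lt (norm_nonneg _) hs.1
  set Cs := B.G '' closedBall 0 s
  have hbs : closedBall (0:ℂ) s ⊆ ball 0 1 := closedBall_subset_ball hs.2
  have hCs : IsCompact Cs := (isCompact_closedBall 0 s).image_of_continuousOn
    (B.G_diff.continuousOn.mono hbs)
  have hCsD : Cs ⊆ B.D := by rintro _ ⟨v, hv, rfl⟩; exact B.G_mem (hbs hv)
  -- distance of the image of Cs from the body
  obtain ⟨δ, hδ, hfar⟩ : ∃ δ > 0, ∀ u ∈ Cs, u ≠ 0 → δ ≤ infDist (B.c + u⁻¹) B.S := by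
    obtain ⟨Rs, hRs0, hRs⟩ := B.compact.isBounded.exists_pos_norm_le
    set η := 1 / (Rs + ‖B.c‖ + 1)
    have hη : 0 < η := by positivity
    have hne0 : ∀ u ∈ Cs \ ball 0 η, u ≠ 0 := fun u hu h => hu.2 (by rw [h]; exact mem_ball_self hη)
    have hC' : IsCompact (Cs \ ball 0 η) := hCs.diff isOpen_ball
    have hcont : ContinuousOn (fun u => infDist (B.c + u⁻¹) B.S) (Cs \ ball 0 η) :=
      (continuous_infDist_pt B.S).comp_continuousOn
        (continuousOn_const.add (continuousOn_id.inv₀ hne0))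
    obtain ⟨m, hm, hmle⟩ := hC'.exists_forall_le' hcont (a := (0:ℝ)) fun u hu =>
      (B.compact.isClosed.notMem_iff_infDist_pos B.nonempty).mp (hCsD hu.1 (hne0 u hu))
    refine ⟨min m 1, lt_min hm one_pos, fun u hu hu0 => ?_⟩
    by_cases hb : u ∈ ball (0:ℂ) η
    · have h1 := far (c := B.c) hRs B.nonempty (u := u)
      have : Rs + ‖B.c‖ + 1 < ‖u⁻¹‖ := by
        rw [norm_inv, lt_inv_comm₀ (by positivity) (norm_pos_iff.mpr hu0)]
        simpa [η] using mem_ball_zero_iff.mp hb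
      linarith [min_le_right m 1]
    · exact le_trans (min_le_left _ _) (hmle u ⟨hu, hb⟩)
  obtain ⟨r, hr, hrnear⟩ := hnear δ hδ
  set r' := max r ‖w‖ with hr'
  have hr'1 : r' < 1 := max_lt hr hw
  have hbr : closedBall (0:ℂ) r' ⊆ ball 0 1 := closedBall_subset_ball hr'1
  set T := (fun p : ℂ × ℂ => p.1) '' {p ∈ closedBall (0:ℂ) r' ×ˢ Cs | p.1 - Z p.1 * p.2 = 0} with hT
  have hTc : IsCompact T := by
    refine IsCompact.image ?_ continuous_fst
    refine ((isCompact_closedBall 0 r').prod hCs).of_isClosed_subset ?_ (fun p hp => hp.1)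
    exact (continuousOn_fst.sub (((hZ.continuousOn.mono hbr).comp continuousOn_fst
      (fun p hp => hp.1)).mul continuousOn_snd)).preimage_isClosed_of_isClosed
      (isClosed_closedBall.prod hCs.isClosed) isClosed_singleton
  have hTmem : ∀ v ∈ T, v ∈ closedBall (0:ℂ) r' ∧ Z v ≠ 0 ∧ v / Z v ∈ Cs := by
    rintro _ ⟨⟨v, u⟩, ⟨⟨hv, hu⟩, heq⟩, rfl⟩
    simp only at heq hv hu ⊢
    rw [sub_eq_zero] at heq
    have hne : Z v ≠ 0 := fun h => by
      rw [h, zero_mul] at heq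
      exact hZ0 (by rwa [heq] at h)
    refine ⟨hv, hne, ?_⟩
    rwa [show v / Z v = u by rw [div_eq_iff hne]; linear_combination heq]
  set U1 := {v ∈ ball (0:ℂ) 1 | Z v ≠ 0}
  have hU1 : IsOpen U1 := hZ.continuousOn.isOpen_inter_preimage isOpen_ball isOpen_compl_singleton
  have hJc : ContinuousOn (fun v => v / Z v) U1 :=
    continuousOn_id.div (hZ.continuousOn.mono fun _ h => h.1) (fun _ h => h.2)
  set V := U1 ∩ (fun v => v / Z v) ⁻¹' (B.D ∩ B.f ⁻¹' ball 0 s)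
  have hV : IsOpen V := hJc.isOpen_inter_preimage hU1
    (B.cand.diff.continuousOn.isOpen_inter_preimage (dom_open B.compact) isOpen_ball)
  have hVT : V ⊆ T := by
    rintro v ⟨⟨hv1, hZv⟩, hJ, hFs⟩
    have hJCs : v / Z v ∈ Cs :=
      ⟨B.f (v / Z v), ball_subset_closedBall hFs, B.G_f hJ⟩
    refine ⟨(v, v / Z v), ⟨⟨?_, hJCs⟩, by simp only; field_simp; ring⟩, rfl⟩
    simp only
    rw [mem_closedBall_zero_iff]
    by_contra hgt
    push Not at hgt
    have hv0 : v ≠ 0 := fun h => by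
      rw [h, norm_zero] at hgt; linarith [norm_nonneg w, le_max_right r ‖w‖, hr']
    have h1 := hrnear v (lt_of_le_of_lt (le_max_left _ _) hgt) (mem_ball_zero_iff.mp hv1)
    have h2 := hfar _ hJCs (div_ne_zero hv0 hZv)
    rw [inv_div] at h2
    linarith
  have hclos : closure V ⊆ T := closure_minimal hVT hTc.isClosed
  set ds := dslope B.f 0
  have hds : DifferentiableOn ℂ ds B.D :=
    (differentiableOn_dslope ((dom_open B.compact).mem_nhds zero_mem_dom)).mpr B.cand.diff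
  have hfu : ∀ u, u * ds u = B.f u := fun u => by
    have := sub_smul_dslope B.f 0 u
    simpa [B.cand.zero, smul_eq_mul] using this
  have hds0 : ∀ u ∈ B.D, ds u ≠ 0 := by
    intro u hu h
    by_cases hu0 : u = 0
    · subst hu0; rw [show ds = dslope B.f 0 from rfl, dslope_same] at h; exact B.cand.deriv_ne _ hu h
    · refine hu0 (B.cand.inj hu zero_mem_dom ?_)
      rw [← hfu u, h, mul_zero, B.cand.zero]
  set h := fun v => Z v / ds (v / Z v) with hh
  have hhd : DiffContOnCl ℂ h V := by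
    refine DifferentiableOn.diffContOnCl ?_
    intro v hv
    obtain ⟨hv1, hv2, hv3⟩ := hTmem v (hclos hv)
    have hZd : DifferentiableAt ℂ Z v := hZ.differentiableAt (isOpen_ball.mem_nhds (hbr hv1))
    have hJd : DifferentiableAt ℂ (fun v => v / Z v) v := differentiableAt_id.div hZd hv2
    have hdd : DifferentiableAt ℂ ds (v / Z v) :=
      hds.differentiableAt ((dom_open B.compact).mem_nhds (hCsD hv3))
    exact (hZd.div (DifferentiableAt.comp (g := ds) v hdd hJd) (hds0 _ (hCsD hv3))).differentiableWithinAt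
  have hnorm : ∀ v, Z v ≠ 0 → v / Z v ∈ B.D → ‖h v‖ * ‖B.f (v / Z v)‖ = ‖v‖ := by
    intro v hv hvD
    rw [← norm_mul, hh, ← hfu]
    congr 1
    have := hds0 _ hvD
    field_simp
  have hfr : ∀ v ∈ frontier V, ‖h v‖ ≤ 1 / s := by
    intro v hv
    rw [hV.frontier_eq] at hv
    obtain ⟨hv1, hv2, hv3⟩ := hTmem v (hclos hv.1)
    have hle : ‖B.f (v / Z v)‖ ≤ s := by
      obtain ⟨y, hy, hy'⟩ := hv3
      rw [← hy', B.f_G (hbs hy)]; exact mem_closedBall_zero_iff.mp hy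
    have hge : s ≤ ‖B.f (v / Z v)‖ := by
      by_contra hlt
      push Not at hlt
      exact hv.2 ⟨⟨hbr hv1, hv2⟩, hCsD hv3, mem_ball_zero_iff.mpr hlt⟩
    rw [le_div_iff₀ hs0, ← le_antisymm hle hge, hnorm v hv2 (hCsD hv3)]
    exact le_trans (mem_closedBall_zero_iff.mp hv1) hr'1.le
  have hwV : w ∈ V := ⟨⟨mem_ball_zero_iff.mpr hw, hZw⟩, hJD, mem_ball_zero_iff.mpr hs.1⟩
  have hbd : IsBounded V := hTc.isBounded.subset hVT
  have hfin := Complex.norm_le_of_forall_mem_frontier_norm_le hbd hhd hfr (subset_closure hwV)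
  calc ‖w‖ = ‖h w‖ * ‖B.f (w / Z w)‖ := (hnorm w hZw hJD).symm
    _ ≤ 1 / s * ‖B.f (w / Z w)‖ := by gcongr
    _ = ‖B.f (w / Z w)‖ / s := by ring

/-- `w G'(w)/G(w)²`, the direction of the outer normal at `zmap w`. -/
noncomputable def nrm (w : ℂ) : ℂ := w * deriv B.G w / B.G w ^ 2

/-- Supporting half plane. -/
lemma support {w k : ℂ} (hw : ‖w‖ < 1) (hw0 : w ≠ 0) (Zf : ℝ → ℂ → ℂ)
    (hZ : ∀ l ∈ Ioo (0:ℝ) (1/2), DifferentiableOn ℂ (Zf l) (ball 0 1))
    (hZ0 : ∀ l ∈ Ioo (0:ℝ) (1/2), Zf l 0 ≠ 0)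
    (hnear : ∀ l ∈ Ioo (0:ℝ) (1/2), ∀ δ > 0, ∃ r < 1, ∀ v : ℂ, r < ‖v‖ → ‖v‖ < 1 →
      infDist (B.c + Zf l v / v) B.S < δ)
    (hseg : ∀ l : ℝ, B.c + Zf l w / w = B.zmap w + (l:ℂ) * (k - B.zmap w)) :
    0 ≤ (B.nrm w * conj (B.zmap w - k)).re := by
  have hwb : w ∈ ball (0:ℂ) 1 := mem_ball_zero_iff.mpr hw
  have hG0 := B.G_ne hwb hw0
  have hJ : ∀ l : ℝ, w / Zf l w = ((B.G w)⁻¹ + (l:ℂ) * (k - B.zmap w))⁻¹ := by
    intro l
    have : Zf l w / w = (B.G w)⁻¹ + (l:ℂ) * (k - B.zmap w) := by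
      have h1 := hseg l
      simp only [zmap] at h1 ⊢
      linear_combination h1
    rw [← this, inv_div]
  have hF : HasDerivAt (fun t : ℂ => B.f ((B.G w)⁻¹ + t * (k - B.zmap w))⁻¹)
      (deriv B.f (B.G w) * (-(k - B.zmap w) * B.G w ^ 2)) 0 := by
    have h1 : HasDerivAt (fun t : ℂ => (B.G w)⁻¹ + t * (k - B.zmap w)) (k - B.zmap w) 0 := by
      simpa using ((hasDerivAt_id (0:ℂ)).mul_const (k - B.zmap w)).const_add (B.G w)⁻¹
    have h2 : HasDerivAt (fun t : ℂ => ((B.G w)⁻¹ + t * (k - B.zmap w))⁻¹)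
        (-(k - B.zmap w) * B.G w ^ 2) 0 := by
      refine (h1.fun_inv (by simpa using hG0)).congr_deriv ?_
      simp only [zero_mul, add_zero, inv_pow, div_inv_eq_mul]
    exact HasDerivAt.comp_of_eq (h₂ := B.f) 0 (B.f_hasDerivAt (B.G_mem hwb)) h2 (by simp)
  set d := deriv B.f (B.G w) * (-(k - B.zmap w) * B.G w ^ 2) with hd
  have hR : HasDerivAt (fun t : ℝ => B.f ((B.G w)⁻¹ + (t:ℂ) * (k - B.zmap w))⁻¹) d 0 :=
    HasDerivAt.comp_ofReal (z := (0:ℝ)) (by simpa using hF)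
  have hre := Complex.reCLM.hasFDerivAt.comp_hasDerivAt 0 hR
  have him := Complex.imCLM.hasFDerivAt.comp_hasDerivAt 0 hR
  set φ := fun t : ℝ => normSq (B.f ((B.G w)⁻¹ + (t:ℂ) * (k - B.zmap w))⁻¹) with hφ
  have hφd : HasDerivAt φ (2 * (conj w * d).re) 0 := by
    have := (hre.mul hre).add (him.mul him)
    have hval : B.f ((B.G w)⁻¹ + ((0:ℝ):ℂ) * (k - B.zmap w))⁻¹ = w := by
      simp [B.f_G hwb]
    refine (this.congr_deriv ?_).congr_of_eventuallyEq (Eventually.of_forall fun t => ?_)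
    · simp only [Function.comp_apply, hval, Complex.reCLM_apply, Complex.imCLM_apply, mul_re,
        conj_re, conj_im]
      ring
    · simp [φ, normSq_apply]
  have hout : ∀ᶠ l : ℝ in 𝓝[>] 0, B.zmap w + (l:ℂ) * (k - B.zmap w) ∉ B.S := by
    have hc : ContinuousAt (fun l : ℝ => B.zmap w + (l:ℂ) * (k - B.zmap w)) 0 := by fun_prop
    exact nhdsWithin_le_nhds (hc.preimage_mem_nhds (B.compact.isClosed.isOpen_compl.mem_nhds
      (by simpa using B.zmap_notMem hwb hw0)))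
  have hinc : ∀ᶠ l : ℝ in 𝓝[>] 0, 0 ≤ slope φ 0 l := by
    filter_upwards [hout, Ioo_mem_nhdsGT (show (0:ℝ) < 1/2 by norm_num)] with l hl hl2
    have h1 := B.radial (hZ l hl2) (hZ0 l hl2) (hnear l hl2) hw hw0 (by rwa [hseg])
    rw [hJ] at h1
    have h2 : φ 0 ≤ φ l := by
      simp only [φ]
      rw [ofReal_zero, zero_mul, add_zero, inv_inv, B.f_G hwb, normSq_eq_norm_sq,
        normSq_eq_norm_sq]
      exact pow_le_pow_left₀ (norm_nonneg _) h1 2
    rw [slope_def_field]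
    exact div_nonneg (by linarith) (by linarith [hl2.1])
  have hpos : 0 ≤ 2 * (conj w * d).re :=
    ge_of_tendsto ((hasDerivAt_iff_tendsto_slope.mp hφd).mono_left
      (nhdsWithin_mono 0 fun x (hx : x ∈ Ioi (0:ℝ)) => ne_of_gt hx)) hinc
  -- identify the sign
  have hGd := (B.G_hasDerivAt hwb).deriv
  have hf0 := B.cand.deriv_ne _ (B.G_mem hwb)
  have e : B.nrm w * conj (B.zmap w - k) =
      ((normSq (deriv B.f (B.G w) * B.G w ^ 2))⁻¹ : ℝ) * conj (conj w * d) := by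
    have hcf : conj (deriv B.f (B.G w)) ≠ 0 := (map_ne_zero _).mpr hf0
    have hcG : conj (B.G w) ≠ 0 := (map_ne_zero _).mpr hG0
    rw [nrm, hGd, hd, ofReal_inv, normSq_eq_conj_mul_self]
    simp only [map_mul, map_sub, map_neg, map_pow, Complex.conj_conj]
    field_simp
    ring
  rw [e, re_ofReal_mul, conj_re]
  exact mul_nonneg (inv_nonneg.mpr (normSq_nonneg _)) (by linarith)

lemma infDist_segment {z k : ℂ} {l : ℝ} (hl : l ∈ Icc (0:ℝ) 1) :
    infDist ((1 - (l:ℂ)) * z + (l:ℂ) * k) B.S ≤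
      (1 - l) * infDist z B.S + l * infDist k B.S := by
  obtain ⟨a, ha, hza⟩ := B.compact.exists_infDist_eq_dist B.nonempty z
  obtain ⟨b, hb, hkb⟩ := B.compact.exists_infDist_eq_dist B.nonempty k
  have hmem := B.conv ha hb (sub_nonneg.mpr hl.2) hl.1 (by ring)
  refine (infDist_le_dist_of_mem hmem).trans ?_
  rw [hza, hkb, dist_eq_norm, dist_eq_norm, dist_eq_norm]
  simp only [Complex.real_smul, ofReal_sub, ofReal_one]
  have : (1 - (l:ℂ)) * z + (l:ℂ) * k - ((1 - (l:ℂ)) * a + (l:ℂ) * b) =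
      ((1 - l : ℝ):ℂ) * (z - a) + (l:ℂ) * (k - b) := by push_cast; ring
  rw [this]
  refine (norm_add_le _ _).trans (le_of_eq ?_)
  rw [norm_mul, norm_mul, Complex.norm_real, Complex.norm_real, Real.norm_eq_abs, Real.norm_eq_abs,
    abs_of_nonneg (sub_nonneg.mpr hl.2), abs_of_nonneg hl.1]

/-- The body lies on the inner side of each normal. -/
lemma support_body {w k : ℂ} (hw : ‖w‖ < 1) (hw0 : w ≠ 0) (hk : k ∈ B.S) :
    0 ≤ (B.nrm w * conj (B.zmap w - k)).re := by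
  refine B.support hw hw0 (fun l v => (1 - (l:ℂ)) / B.gam v + (l:ℂ) * (k - B.c) * v)
    (fun l _ => ((differentiableOn_const _).div B.gam_diff fun v hv => B.gam_ne hv).add
      ((differentiableOn_const _).mul differentiableOn_id)) ?_ ?_ ?_
  · intro l hl
    simp only [mul_zero, add_zero]
    refine div_ne_zero ?_ (B.gam_ne (mem_ball_self one_pos))
    rw [← ofReal_one, ← ofReal_sub]; exact ofReal_ne_zero.mpr (by linarith [hl.2])
  · intro l hl δ hδ
    obtain ⟨r, hr, hnear⟩ := B.zmap_near hδ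
    refine ⟨max r 0, max_lt hr one_pos, fun v hv1 hv2 => ?_⟩
    have hv0 : v ≠ 0 := fun h => by simp [h] at hv1
    have hg := B.gam_ne (mem_ball_zero_iff.mpr hv2)
    have e : B.c + ((1 - (l:ℂ)) / B.gam v + (l:ℂ) * (k - B.c) * v) / v =
        (1 - (l:ℂ)) * B.zmap v + (l:ℂ) * k := by
      rw [zmap, ← B.gam_mul]; field_simp; ring
    rw [e]
    refine (B.infDist_segment ⟨hl.1.le, by linarith [hl.2]⟩).trans_lt ?_
    rw [infDist_zero_of_mem hk, mul_zero, add_zero]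
    have := hnear v (lt_of_le_of_lt (le_max_left _ _) hv1) hv2
    nlinarith [infDist_nonneg (x := B.zmap v) (s := B.S), hl.1]
  · intro l
    have hg := B.gam_ne (mem_ball_zero_iff.mpr hw)
    rw [zmap, ← B.gam_mul]; field_simp; ring

/-- Convexity of level curves. -/
lemma support_curve {w v : ℂ} (hw : ‖w‖ < 1) (hw0 : w ≠ 0) (hv : ‖v‖ = ‖w‖) :
    0 ≤ (B.nrm w * conj (B.zmap w - B.zmap v)).re := by
  set a := v / w with ha
  have ha1 : ‖a‖ = 1 := by rw [ha, norm_div, hv, div_self (norm_ne_zero_iff.mpr hw0)]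
  have haw : a * w = v := by rw [ha, div_mul_cancel₀ _ hw0]
  have hrot : MapsTo (fun u : ℂ => a * u) (ball 0 1) (ball 0 1) := fun u hu => by
    rw [mem_ball_zero_iff, norm_mul, ha1, one_mul]; exact mem_ball_zero_iff.mp hu
  have hane : a ≠ 0 := fun h => by simp [h] at ha1
  refine B.support hw hw0 (fun l u => (1 - (l:ℂ)) / B.gam u + (l:ℂ) / (a * B.gam (a * u)))
    (fun l _ => ((differentiableOn_const _).div B.gam_diff fun u hu => B.gam_ne hu).add
      ((differentiableOn_const _).div ((differentiableOn_const a).mul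
        (B.gam_diff.comp (by fun_prop) hrot)) fun u hu => mul_ne_zero hane (B.gam_ne (hrot hu))))
    ?_ ?_ ?_
  · intro l hl h
    have hg := B.gam_ne (mem_ball_self (zero_lt_one (α := ℝ)) : (0:ℂ) ∈ ball (0:ℂ) 1)
    simp only [mul_zero] at h
    field_simp at h
    have h' : ((1 - l : ℝ) : ℂ) * a = ((-l : ℝ) : ℂ) := by push_cast; linear_combination h
    have := congrArg norm h'
    rw [norm_mul, Complex.norm_real, Complex.norm_real, ha1, mul_one, Real.norm_eq_abs,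
      Real.norm_eq_abs, abs_neg, abs_of_pos hl.1, abs_of_pos (by linarith [hl.2] : (0:ℝ) < 1 - l)]
      at this
    linarith [hl.2]
  · intro l hl δ hδ
    obtain ⟨r, hr, hnear⟩ := B.zmap_near hδ
    refine ⟨max r 0, max_lt hr one_pos, fun u hu1 hu2 => ?_⟩
    have hu0 : u ≠ 0 := fun h => by simp [h] at hu1
    have hub := mem_ball_zero_iff.mpr hu2
    have hg := B.gam_ne hub
    have hg' := B.gam_ne (hrot hub)
    have e : B.c + ((1 - (l:ℂ)) / B.gam u + (l:ℂ) / (a * B.gam (a * u))) / u =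
        (1 - (l:ℂ)) * B.zmap u + (l:ℂ) * B.zmap (a * u) := by
      rw [zmap, zmap, ← B.gam_mul, ← B.gam_mul (a * u)]; field_simp; ring
    rw [e]
    refine (B.infDist_segment ⟨hl.1.le, by linarith [hl.2]⟩).trans_lt ?_
    have hnu : ‖a * u‖ = ‖u‖ := by rw [norm_mul, ha1, one_mul]
    have hru := lt_of_le_of_lt (le_max_left r 0) hu1
    have h1 := hnear u hru hu2
    have h2 := hnear (a * u) (by rw [hnu]; exact hru) (by rw [hnu]; exact hu2)
    nlinarith [hl.1, hl.2]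
  · intro l
    have hwb := mem_ball_zero_iff.mpr hw
    have hg := B.gam_ne hwb
    have hg' := B.gam_ne (hrot hwb)
    rw [← haw, zmap, zmap, ← B.gam_mul, ← B.gam_mul (a * w)]
    field_simp
    ring

end Body

/-- Exterior map data approximating a convex body. -/
theorem exists_extMap {S : Set ℂ} (hS : IsCompact S) (hconv : Convex ℝ S) {c : ℂ} {e : ℝ}
    (he : 0 < e) (hball : closedBall c e ⊆ S) {δ : ℝ} (hδ : 0 < δ) :
    ∃ M : ExtMap,
      (∀ w ∈ ball (0:ℂ) M.rad, w ≠ 0 → M.pt w ∉ S) ∧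
      (∀ w ∈ sphere (0:ℂ) 1, infDist (M.pt w) S < δ) ∧
      (∀ w ∈ sphere (0:ℂ) 1, ∀ k ∈ S, 0 ≤ (M.num w / w * conj (M.pt w - k)).re) ∧
      (∀ w ∈ sphere (0:ℂ) 1, ∀ v ∈ sphere (0:ℂ) 1,
        0 ≤ (M.num w / w * conj (M.pt w - M.pt v)).re) := by
  obtain ⟨f, hf, hsurj⟩ := Riemann.exists_riemann (dom_open hS) (dom_star hconv
    (hball (mem_closedBall_self he.le))) zero_mem_dom (dom_bounded he hball)
  set B : Body := ⟨S, c, e, hS, hconv, he, hball, f, hf, hsurj⟩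
  obtain ⟨r0, hr0, hnear⟩ := B.zmap_near hδ
  obtain ⟨r, hr0r, hr1⟩ := exists_between (max_lt hr0 one_pos : max r0 0 < 1)
  have hr : 0 < r := lt_of_le_of_lt (le_max_right _ _) hr0r
  have hrC : (r:ℂ) ≠ 0 := ofReal_ne_zero.mpr hr.ne'
  have hmap : ∀ w ∈ ball (0:ℂ) (1 / r), (r:ℂ) * w ∈ ball (0:ℂ) 1 := fun w hw => by
    rw [mem_ball_zero_iff] at hw ⊢
    rw [norm_mul, Complex.norm_real, Real.norm_eq_abs, abs_of_pos hr, mul_comm, ← lt_div_iff₀ hr]
    exact hw
  set fn := fun w : ℂ => (B.c * ((r:ℂ) * w) + (B.gam ((r:ℂ) * w))⁻¹) / r with hfn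
  have hdiff : DifferentiableOn ℂ fn (ball 0 (1 / r)) := by
    intro w hw
    have h1 : DifferentiableAt ℂ B.gam ((r:ℂ) * w) :=
      B.gam_diff.differentiableAt (isOpen_ball.mem_nhds (hmap w hw))
    have h2 : DifferentiableAt ℂ (fun w : ℂ => B.gam ((r:ℂ) * w)) w :=
      DifferentiableAt.comp (g := B.gam) w h1 (by fun_prop)
    exact (((differentiableAt_id.const_mul (r:ℂ)).const_mul B.c).add
      (h2.inv (B.gam_ne (hmap w hw)))).div_const _ |>.differentiableWithinAt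
  have hfn0 : fn 0 ≠ 0 := by
    simp only [hfn, mul_zero, zero_add]
    exact div_ne_zero (inv_ne_zero (B.gam_ne (mem_ball_self one_pos))) hrC
  have hpt : ∀ w ∈ ball (0:ℂ) (1 / r), w ≠ 0 → fn w / w = B.zmap ((r:ℂ) * w) := by
    intro w hw hw0
    have := B.gam_ne (hmap w hw)
    rw [hfn, Body.zmap, ← B.gam_mul]
    field_simp
  have hnum : ∀ w ∈ ball (0:ℂ) (1 / r), w ≠ 0 →
      (fn w - w * deriv fn w) / w = B.nrm ((r:ℂ) * w) := by
    intro w hw hw0
    have hrw : (r:ℂ) * w ≠ 0 := mul_ne_zero hrC hw0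
    have hG := B.G_ne (hmap w hw) hrw
    have h1 : HasDerivAt (fun v => fn v / v) ((deriv fn w * w - fn w * 1) / w ^ 2) w :=
      ((hdiff.differentiableAt (isOpen_ball.mem_nhds hw)).hasDerivAt).div (hasDerivAt_id w) hw0
    have hGd : HasDerivAt (fun v => B.G ((r:ℂ) * v)) (deriv B.G ((r:ℂ) * w) * ((r:ℂ) * 1)) w := by
      have := B.G_hasDerivAt (hmap w hw)
      rw [← this.deriv] at this
      exact HasDerivAt.comp (h₂ := B.G) w this ((hasDerivAt_id w).const_mul (r:ℂ))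
    have h2 : HasDerivAt (fun v => B.zmap ((r:ℂ) * v))
        (-(deriv B.G ((r:ℂ) * w) * ((r:ℂ) * 1)) / B.G ((r:ℂ) * w) ^ 2) w :=
      (hGd.fun_inv hG).const_add B.c
    have h3 : (fun v => fn v / v) =ᶠ[𝓝 w] fun v => B.zmap ((r:ℂ) * v) := by
      filter_upwards [isOpen_ball.mem_nhds hw, eventually_ne_nhds hw0] with v hv hv0
      exact hpt v hv hv0
    have h4 := h1.unique (h2.congr_of_eventuallyEq h3)
    rw [Body.nrm]
    field_simp at h4 ⊢
    linear_combination -h4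
  have hnne : ∀ w ∈ ball (0:ℂ) (1 / r), fn w - w * deriv fn w ≠ 0 := by
    intro w hw h
    by_cases hw0 : w = 0
    · subst hw0; exact hfn0 (by simpa using h)
    · have := hnum w hw hw0
      rw [h, zero_div, Body.nrm] at this
      refine div_ne_zero (mul_ne_zero (mul_ne_zero hrC hw0) ?_)
        (pow_ne_zero _ (B.G_ne (hmap w hw) (mul_ne_zero hrC hw0))) this.symm
      rw [(B.G_hasDerivAt (hmap w hw)).deriv]
      exact inv_ne_zero (B.cand.deriv_ne _ (B.G_mem (hmap w hw)))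
  have hinj : ∀ w ∈ ball (0:ℂ) (1 / r), ∀ v ∈ ball (0:ℂ) (1 / r),
      v * fn w = w * fn v → w = v := by
    intro w hw v hv h
    by_cases hw0 : w = 0
    · subst hw0
      rw [zero_mul, mul_eq_zero] at h
      exact (h.resolve_right hfn0).symm
    by_cases hv0 : v = 0
    · subst hv0
      rw [zero_mul] at h
      exact absurd (mul_eq_zero.mp h.symm) (not_or.mpr ⟨hw0, hfn0⟩)
    have hz : fn w / w = fn v / v := by field_simp; linear_combination h
    rw [hpt w hw hw0, hpt v hv hv0, Body.zmap, Body.zmap, add_right_inj, inv_inj] at hz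
    have h2 := congrArg B.f hz
    rw [B.f_G (hmap w hw), B.f_G (hmap v hv)] at h2
    exact mul_left_cancel₀ hrC h2
  let M : ExtMap := ⟨fn, 1 / r, by rw [lt_div_iff₀ hr]; linarith, hdiff, hinj, hnne⟩
  have hs : ∀ w ∈ sphere (0:ℂ) 1, w ∈ ball (0:ℂ) (1 / r) ∧ w ≠ 0 ∧ ‖(r:ℂ) * w‖ = r := by
    intro w hw
    rw [mem_sphere_zero_iff_norm] at hw
    refine ⟨?_, fun h => by simp [h] at hw, ?_⟩
    · rw [mem_ball_zero_iff, hw, lt_div_iff₀ hr]; linarith
    · rw [norm_mul, hw, Complex.norm_real, Real.norm_eq_abs, abs_of_pos hr, mul_one]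
  refine ⟨M, ?_, ?_, ?_, ?_⟩
  · intro w hw hw0
    show fn w / w ∉ S
    rw [hpt w hw hw0]
    exact B.zmap_notMem (hmap w hw) (mul_ne_zero hrC hw0)
  · intro w hw
    obtain ⟨h1, h2, h3⟩ := hs w hw
    show infDist (fn w / w) S < δ
    rw [hpt w h1 h2]
    exact hnear _ (by rw [h3]; exact lt_of_le_of_lt (le_max_left _ _) hr0r) (by rw [h3]; exact hr1)
  · intro w hw k hk
    obtain ⟨h1, h2, h3⟩ := hs w hw
    show 0 ≤ ((fn w - w * deriv fn w) / w * conj (fn w / w - k)).re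
    rw [hnum w h1 h2, hpt w h1 h2]
    exact B.support_body (by rw [h3]; exact hr1) (mul_ne_zero hrC h2) hk
  · intro w hw v hv
    obtain ⟨h1, h2, h3⟩ := hs w hw
    obtain ⟨h1', h2', h3'⟩ := hs v hv
    show 0 ≤ ((fn w - w * deriv fn w) / w * conj (fn w / w - fn v / v)).re
    rw [hnum w h1 h2, hpt w h1 h2, hpt v h1' h2']
    exact B.support_curve (by rw [h3]; exact hr1) (mul_ne_zero hrC h2) (by rw [h3, h3'])

end Vale.Agent.P123.Exterior
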