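import Mathlib

/-
Exterior-map data in the inverted coordinate: the exterior map is `w ↦ C w / w`, `0 < ‖w‖ < ρ`,
and the Grunsky type kernel `1 + 2 Re L` of the double layer potential.
-/

open Complex Metric Set Filter Real MeasureTheory
open scoped Topology ComplexConjugate

namespace Vale.Agent.P123

/-- Data of an exterior univalent map `w ↦ fn w / w`. -/
structure ExtMap where
  fn : ℂ → ℂ
  rad : ℝ
  one_lt : 1 < rad
  diff : DifferentiableOn ℂ fn (ball 0 rad)
  inj : ∀ w ∈ ball (0:ℂ) rad, ∀ v ∈ ball (0:ℂ) rad, v * fn w = w * fn v → w = v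
  num_ne : ∀ w ∈ ball (0:ℂ) rad, fn w - w * deriv fn w ≠ 0

namespace ExtMap

variable (M : ExtMap)

noncomputable def R : ℝ := (1 + M.rad) / 2

lemma one_lt_R : 1 < M.R := by have := M.one_lt; unfold R; linarith
lemma R_lt_rad : M.R < M.rad := by have := M.one_lt; unfold R; linarith
lemma R_pos : 0 < M.R := lt_trans one_pos M.one_lt_R

noncomputable def num (w : ℂ) : ℂ := M.fn w - w * deriv M.fn w

noncomputable def second (w v : ℂ) : ℂ :=
  (2 * π * I : ℂ)⁻¹ • ∮ s in C(0, M.R), ((s - w) ^ 2 * (s - v))⁻¹ * M.fn s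

noncomputable def den (w v : ℂ) : ℂ := M.num w - w * (v - w) * M.second w v

noncomputable def L (w v : ℂ) : ℂ := w * v * M.second w v / M.den w v

noncomputable def ker (w v : ℂ) : ℝ := 1 + 2 * (M.L w v).re

lemma fn_zero_ne : M.fn 0 ≠ 0 := by
  simpa using M.num_ne 0 (by simpa using lt_trans one_pos M.one_lt)

lemma mem_rad {w : ℂ} (hw : w ∈ ball (0:ℂ) M.R) : w ∈ ball (0:ℂ) M.rad :=
  ball_subset_ball M.R_lt_rad.le hw

lemma unit_mem {w : ℂ} (hw : w ∈ sphere (0:ℂ) 1) : w ∈ ball (0:ℂ) M.R := by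
  have := mem_sphere_zero_iff_norm.mp hw
  rw [mem_ball_zero_iff, this]; exact M.one_lt_R

lemma diff_closed : DifferentiableOn ℂ M.fn (closedBall 0 M.R) :=
  M.diff.mono (closedBall_subset_ball M.R_lt_rad)

lemma second_eq {w v : ℂ} (hw : w ∈ ball (0:ℂ) M.R) (hv : v ∈ ball (0:ℂ) M.R) (hne : w ≠ v) :
    M.second w v = (M.fn v - M.fn w) / (v - w) ^ 2 - deriv M.fn w / (v - w) := by
  have hR := M.R_pos.le
  have hcont : ContinuousOn M.fn (sphere 0 M.R) :=
    M.diff_closed.continuousOn.mono sphere_subset_closedBall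
  have hsub : ∀ z ∈ ball (0:ℂ) M.R, ∀ s ∈ sphere (0:ℂ) M.R, s - z ≠ 0 := by
    intro z hz s hs h
    rw [sub_eq_zero] at h
    rw [mem_ball_zero_iff] at hz
    rw [mem_sphere_zero_iff_norm, h] at hs
    linarith
  have hvw : v - w ≠ 0 := sub_ne_zero.mpr (Ne.symm hne)
  have h1 : CircleIntegrable (fun s => (s - v)⁻¹ • M.fn s) 0 M.R :=
    (((continuousOn_id.sub continuousOn_const).inv₀ (hsub v hv)).smul hcont).circleIntegrable hR
  have h2 : CircleIntegrable (fun s => (s - w)⁻¹ • M.fn s) 0 M.R :=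
    (((continuousOn_id.sub continuousOn_const).inv₀ (hsub w hw)).smul hcont).circleIntegrable hR
  have h3 : CircleIntegrable (fun s => ((s - w) ^ 2)⁻¹ • M.fn s) 0 M.R :=
    ((((continuousOn_id.sub continuousOn_const).pow 2).inv₀
      (fun s hs => pow_ne_zero _ (hsub w hw s hs))).smul hcont).circleIntegrable hR
  have e1 := M.diff_closed.circleIntegral_sub_inv_smul hv
  have e2 := M.diff_closed.circleIntegral_sub_inv_smul hw
  have e3 := two_pi_I_inv_smul_circleIntegral_sub_sq_inv_smul_of_differentiable isOpen_ball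
    (closedBall_subset_ball M.R_lt_rad) M.diff hw
  have heq : EqOn (fun s => ((s - w) ^ 2 * (s - v))⁻¹ * M.fn s)
      (fun s => ((v - w) ^ 2)⁻¹ * ((s - v)⁻¹ • M.fn s - (s - w)⁻¹ • M.fn s)
        - (v - w)⁻¹ * (((s - w) ^ 2)⁻¹ • M.fn s)) (sphere 0 M.R) := by
    intro s hs
    have := hsub w hw s hs
    have := hsub v hv s hs
    simp only [smul_eq_mul]
    field_simp
    ring
  have h12 : CircleIntegrable
      (fun s => ((v - w) ^ 2)⁻¹ * ((s - v)⁻¹ • M.fn s - (s - w)⁻¹ • M.fn s)) 0 M.R :=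
    IntervalIntegrable.const_mul (h1.sub h2) _
  have h3' : CircleIntegrable (fun s => (v - w)⁻¹ * (((s - w) ^ 2)⁻¹ • M.fn s)) 0 M.R :=
    IntervalIntegrable.const_mul h3 _
  rw [second, circleIntegral.integral_congr hR heq,
    circleIntegral.integral_sub h12 h3',
    circleIntegral.integral_const_mul, circleIntegral.integral_const_mul,
    circleIntegral.integral_sub h1 h2, e1, e2, ← e3]
  have : (2 * π * I : ℂ) ≠ 0 := by simp [Real.pi_ne_zero]
  simp only [smul_eq_mul]
  field_simp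

lemma second_continuousOn :
    ContinuousOn (fun p : ℂ × ℂ => M.second p.1 p.2)
      (ball (0:ℂ) M.R ×ˢ ball (0:ℂ) M.R) := by
  rw [continuousOn_iff_continuous_domRestrict]
  refine Continuous.const_smul ?_ ((2 * π * I : ℂ)⁻¹)
  show Continuous fun p : (ball (0:ℂ) M.R ×ˢ ball (0:ℂ) M.R : Set (ℂ × ℂ)) =>
    ∮ s in C(0, M.R), ((s - p.1.1) ^ 2 * (s - p.1.2))⁻¹ * M.fn s
  unfold circleIntegral
  apply intervalIntegral.continuous_parametric_intervalIntegral_of_continuous'
  have hcm : ∀ θ, circleMap 0 M.R θ ∈ sphere (0:ℂ) M.R :=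
    fun θ => circleMap_mem_sphere 0 M.R_pos.le θ
  have hfn : Continuous fun θ : ℝ => M.fn (circleMap 0 M.R θ) :=
    M.diff_closed.continuousOn.comp_continuous (continuous_circleMap 0 M.R)
      (fun θ => sphere_subset_closedBall (hcm θ))
  simp only [Function.uncurry_def, deriv_circleMap, smul_eq_mul]
  refine Continuous.mul (by fun_prop) (Continuous.mul (Continuous.inv₀ (by fun_prop) ?_) (hfn.comp continuous_snd))
  rintro ⟨⟨⟨a, b⟩, ha, hb⟩, θ⟩
  have hθ := mem_sphere_zero_iff_norm.mp (hcm θ)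
  rw [mem_ball_zero_iff] at ha hb
  apply mul_ne_zero
  · apply pow_ne_zero; intro h; rw [sub_eq_zero] at h; rw [h] at hθ; dsimp at *; linarith
  · intro h; rw [sub_eq_zero] at h; rw [h] at hθ; dsimp at *; linarith

lemma deriv_diff : DifferentiableOn ℂ (deriv M.fn) (ball 0 M.rad) :=
  M.diff.deriv isOpen_ball

lemma num_diff : DifferentiableOn ℂ M.num (ball 0 M.R) :=
  ((M.diff.sub (differentiableOn_id.mul M.deriv_diff)).mono fun _ => M.mem_rad)

lemma second_diff_snd {w : ℂ} (hw : w ∈ ball (0:ℂ) M.R) :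
    DifferentiableOn ℂ (fun v => M.second w v) (ball 0 M.R) := by
  refine (differentiableOn_compl_singleton_and_continuousAt_iff (isOpen_ball.mem_nhds hw)).mp
    ⟨?_, ?_⟩
  · have hd : DifferentiableOn ℂ M.fn (ball 0 M.R) := M.diff.mono fun _ => M.mem_rad
    refine DifferentiableOn.congr ?_ (fun v hv => M.second_eq hw hv.1 (Ne.symm hv.2))
    refine ((((hd.mono sdiff_subset).sub (differentiableOn_const _)).div ?_ ?_).sub
      ((differentiableOn_const _).div ?_ ?_))
    · fun_prop
    · exact fun v hv => pow_ne_zero _ (sub_ne_zero.mpr hv.2)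
    · fun_prop
    · exact fun v hv => sub_ne_zero.mpr hv.2
  · have := M.second_continuousOn.continuousAt ((isOpen_ball.prod isOpen_ball).mem_nhds (mk_mem_prod hw hw))
    exact ContinuousAt.comp_of_eq (g := fun p : ℂ × ℂ => M.second p.1 p.2) (f := fun v => (w, v))
      this (by fun_prop) rfl

lemma second_diff_fst {v : ℂ} (hv : v ∈ ball (0:ℂ) M.R) :
    DifferentiableOn ℂ (fun w => M.second w v) (ball 0 M.R) := by
  refine (differentiableOn_compl_singleton_and_continuousAt_iff (isOpen_ball.mem_nhds hv)).mp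
    ⟨?_, ?_⟩
  · have hd : DifferentiableOn ℂ M.fn (ball 0 M.R) := M.diff.mono fun _ => M.mem_rad
    have hd' : DifferentiableOn ℂ (deriv M.fn) (ball 0 M.R) :=
      M.deriv_diff.mono fun _ => M.mem_rad
    refine DifferentiableOn.congr ?_ (fun w hw => M.second_eq hw.1 hv hw.2)
    refine ((((differentiableOn_const _).sub (hd.mono sdiff_subset)).div ?_ ?_).sub
      ((hd'.mono sdiff_subset).div ?_ ?_))
    · fun_prop
    · exact fun w hw => pow_ne_zero _ (sub_ne_zero.mpr (Ne.symm hw.2))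
    · fun_prop
    · exact fun w hw => sub_ne_zero.mpr (Ne.symm hw.2)
  · have := M.second_continuousOn.continuousAt ((isOpen_ball.prod isOpen_ball).mem_nhds (mk_mem_prod hv hv))
    exact ContinuousAt.comp_of_eq (g := fun p : ℂ × ℂ => M.second p.1 p.2) (f := fun w => (w, v))
      this (by fun_prop) rfl

lemma den_mul {w v : ℂ} (hw : w ∈ ball (0:ℂ) M.R) (hv : v ∈ ball (0:ℂ) M.R) (hne : w ≠ v) :
    (v - w) * M.den w v = v * M.fn w - w * M.fn v := by
  have : v - w ≠ 0 := sub_ne_zero.mpr (Ne.symm hne)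
  rw [den, M.second_eq hw hv hne, num]
  field_simp
  ring

lemma den_ne {w v : ℂ} (hw : w ∈ ball (0:ℂ) M.R) (hv : v ∈ ball (0:ℂ) M.R) :
    M.den w v ≠ 0 := by
  by_cases hne : w = v
  · subst hne
    simpa [den, num] using M.num_ne w (M.mem_rad hw)
  · intro h
    have := M.den_mul hw hv hne
    rw [h, mul_zero] at this
    exact hne (M.inj w (M.mem_rad hw) v (M.mem_rad hv) (sub_eq_zero.mp this.symm))

lemma L_continuousOn :
    ContinuousOn (fun p : ℂ × ℂ => M.L p.1 p.2) (ball (0:ℂ) M.R ×ˢ ball (0:ℂ) M.R) := by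
  have hn : ContinuousOn (fun p : ℂ × ℂ => M.num p.1) (ball (0:ℂ) M.R ×ˢ ball (0:ℂ) M.R) :=
    M.num_diff.continuousOn.comp continuousOn_fst (fun p hp => hp.1)
  exact ((continuousOn_fst.mul continuousOn_snd).mul M.second_continuousOn).div
    (hn.sub ((continuousOn_fst.mul (continuousOn_snd.sub continuousOn_fst)).mul
      M.second_continuousOn)) (fun p hp => M.den_ne hp.1 hp.2)

lemma L_diff_fst {v : ℂ} (hv : v ∈ ball (0:ℂ) M.R) :
    DifferentiableOn ℂ (fun w => M.L w v) (ball 0 M.R) :=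
  ((differentiableOn_id.mul (differentiableOn_const v)).mul (M.second_diff_fst hv)).div
    (M.num_diff.sub ((differentiableOn_id.mul ((differentiableOn_const v).sub differentiableOn_id)).mul
      (M.second_diff_fst hv))) (fun _ hw => M.den_ne hw hv)

lemma L_diff_snd {w : ℂ} (hw : w ∈ ball (0:ℂ) M.R) :
    DifferentiableOn ℂ (fun v => M.L w v) (ball 0 M.R) :=
  (((differentiableOn_const w).mul differentiableOn_id).mul (M.second_diff_snd hw)).div
    ((differentiableOn_const (M.num w)).sub (((differentiableOn_const w).mul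
      (differentiableOn_id.sub (differentiableOn_const w))).mul
      (M.second_diff_snd hw))) (fun _ hv => M.den_ne hw hv)

@[simp] lemma L_zero_left (v : ℂ) : M.L 0 v = 0 := by simp [L]
@[simp] lemma L_zero_right (w : ℂ) : M.L w 0 = 0 := by simp [L]

/-- The point of the boundary curve. -/
noncomputable def pt (w : ℂ) : ℂ := M.fn w / w

lemma L_eq {w v : ℂ} (hw : w ∈ ball (0:ℂ) M.R) (hv : v ∈ ball (0:ℂ) M.R) (hne : w ≠ v)
    (hw0 : w ≠ 0) (hv0 : v ≠ 0) :
    M.L w v = (M.num w / w) / (M.pt w - M.pt v) - v / (v - w) := by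
  have hvw : v - w ≠ 0 := sub_ne_zero.mpr (Ne.symm hne)
  have hd := M.den_ne hw hv
  have e : M.pt w - M.pt v = (v - w) * M.den w v / (w * v) := by
    rw [M.den_mul hw hv hne, pt, pt]; field_simp
  rw [e, L, eq_sub_iff_add_eq]
  field_simp
  rw [den]; ring

lemma pt_ne {w v : ℂ} (hw : w ∈ ball (0:ℂ) M.R) (hv : v ∈ ball (0:ℂ) M.R) (hne : w ≠ v)
    (hw0 : w ≠ 0) (hv0 : v ≠ 0) : M.pt w - M.pt v ≠ 0 := by
  intro h
  rw [sub_eq_zero, pt, pt, div_eq_div_iff hw0 hv0] at h
  exact hne (M.inj w (M.mem_rad hw) v (M.mem_rad hv) (by linear_combination h))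

lemma re_div_sub_self {w v : ℂ} (hw : ‖w‖ = 1) (hv : ‖v‖ = 1) (hne : w ≠ v) :
    (v / (v - w)).re = 1 / 2 := by
  have hw' : w.re * w.re + w.im * w.im = 1 := by
    rw [← normSq_apply, normSq_eq_norm_sq, hw]; norm_num
  have hv' : v.re * v.re + v.im * v.im = 1 := by
    rw [← normSq_apply, normSq_eq_norm_sq, hv]; norm_num
  have hn : normSq (v - w) ≠ 0 := by simpa [sub_eq_zero] using Ne.symm hne
  rw [div_re, ← add_div, div_eq_iff hn]
  simp only [normSq_apply, sub_re, sub_im]
  linarith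

/-- Convexity of the boundary curve gives positivity of the kernel. -/
lemma ker_nonneg
    (hconv : ∀ w ∈ sphere (0:ℂ) 1, ∀ v ∈ sphere (0:ℂ) 1,
      0 ≤ ((M.num w / w) * conj (M.pt w - M.pt v)).re)
    {w v : ℂ} (hw : w ∈ sphere (0:ℂ) 1) (hv : v ∈ sphere (0:ℂ) 1) : 0 ≤ M.ker w v := by
  have key : ∀ w ∈ sphere (0:ℂ) 1, ∀ v ∈ sphere (0:ℂ) 1, w ≠ v → 0 ≤ M.ker w v := by
    intro w hw v hv hne
    have hw1 := mem_sphere_zero_iff_norm.mp hw
    have hv1 := mem_sphere_zero_iff_norm.mp hv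
    have hw0 : w ≠ 0 := fun h => by simp [h] at hw1
    have hv0 : v ≠ 0 := fun h => by simp [h] at hv1
    have h := M.pt_ne (M.unit_mem hw) (M.unit_mem hv) hne hw0 hv0
    have e : ((M.num w / w) / (M.pt w - M.pt v)) =
        ((M.num w / w) * conj (M.pt w - M.pt v)) / (normSq (M.pt w - M.pt v) : ℂ) := by
      rw [← mul_conj]
      have hc : conj (M.pt w - M.pt v) ≠ 0 := (map_ne_zero _).mpr h
      rw [mul_div_mul_right _ _ hc]
    rw [ker, M.L_eq (M.unit_mem hw) (M.unit_mem hv) hne hw0 hv0, sub_re,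
      re_div_sub_self hw1 hv1 hne, e, div_ofReal_re]
    have := div_nonneg (hconv w hw v hv) (normSq_nonneg (M.pt w - M.pt v))
    linarith
  by_cases hne : w = v
  · subst hne
    have hw1 := mem_sphere_zero_iff_norm.mp hw
    let a : ℕ → ℂ := fun n => w * Complex.exp ((1 / (n + 1 : ℝ) : ℝ) * I)
    have ha : Tendsto a atTop (𝓝 w) := by
      have : Tendsto (fun t : ℝ => w * Complex.exp ((t : ℂ) * I)) (𝓝 0) (𝓝 w) := by
        have h : Continuous (fun t : ℝ => w * Complex.exp ((t : ℂ) * I)) := by fun_prop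
        simpa using h.tendsto 0
      exact this.comp tendsto_one_div_add_atTop_nhds_zero_nat
    have has : ∀ n, a n ∈ sphere (0:ℂ) 1 := fun n => by
      rw [mem_sphere_zero_iff_norm, norm_mul, hw1, Complex.norm_exp_ofReal_mul_I, one_mul]
    have hane : ∀ n, w ≠ a n := by
      intro n h
      have hw0 : w ≠ 0 := fun h => by simp [h] at hw1
      have : Complex.exp ((1 / (n + 1 : ℝ) : ℝ) * I) = 1 := by
        apply mul_left_cancel₀ hw0; rw [mul_one]; exact h.symm
      have h2 := congrArg Complex.im this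
      rw [Complex.exp_ofReal_mul_I_im, one_im] at h2
      have : 0 < Real.sin (1 / (n + 1 : ℝ)) := Real.sin_pos_of_pos_of_lt_pi (by positivity) (by
        have h1 : (1 / (n + 1 : ℝ)) ≤ 1 := by rw [div_le_one (by positivity)]; simp
        have := Real.pi_gt_three; linarith)
      linarith
    have hk : ContinuousAt (fun v => M.ker w v) w := by
      have h := M.L_continuousOn.continuousAt
        ((isOpen_ball.prod isOpen_ball).mem_nhds (mk_mem_prod (M.unit_mem hw) (M.unit_mem hw)))
      have h' : ContinuousAt (fun v => M.L w v) w :=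
        ContinuousAt.comp_of_eq (g := fun p : ℂ × ℂ => M.L p.1 p.2) (f := fun v => (w, v))
          h (Continuous.continuousAt (Continuous.prodMk continuous_const continuous_id)) rfl
      exact continuousAt_const.add
        (continuousAt_const.mul (Complex.continuous_re.continuousAt.comp h'))
    exact ge_of_tendsto (hk.tendsto.comp ha) (Eventually.of_forall fun n =>
      key w hw (a n) (has n) (hane n))
  · exact key w hw v hv hne

end ExtMap

end Vale.Agent.P123
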