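import Vale.Agent.P123.Core
import Vale.Agent.P123.Exterior

/-
Toeplitz-Hausdorff, the finite dimensional estimate and the reduction to it by compression.
-/

open Complex Metric Set Filter Bornology Polynomial
open scoped Topology ComplexConjugate

namespace Vale.Agent.P123

variable {H : Type*} [NormedAddCommGroup H] [InnerProductSpace ℂ H]

/-- The numerical range. -/
def numRange (T : H →L[ℂ] H) : Set ℂ := {z | ∃ x : H, ‖x‖ = 1 ∧ z = inner ℂ x (T x)}

lemma quot_mem_numRange (T : H →L[ℂ] H) {z : H} (hz : z ≠ 0) :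
    inner ℂ z (T z) / ((‖z‖ ^ 2 : ℝ) : ℂ) ∈ numRange T := by
  have hn : ‖z‖ ≠ 0 := norm_ne_zero_iff.mpr hz
  have hn' : ((‖z‖ : ℝ) : ℂ) ≠ 0 := ofReal_ne_zero.mpr hn
  refine ⟨((‖z‖ : ℝ) : ℂ)⁻¹ • z, ?_, ?_⟩
  · rw [norm_smul, norm_inv, Complex.norm_real, norm_norm, inv_mul_cancel₀ hn]
  · rw [map_smul, inner_smul_left, inner_smul_right, map_inv₀, conj_ofReal, ofReal_pow]
    field_simp

/-- Toeplitz-Hausdorff. -/
theorem numRange_convex (T : H →L[ℂ] H) : Convex ℝ (numRange T) := by
  rintro a ⟨x, hx, rfl⟩ b ⟨y, hy, rfl⟩ s t hs ht hst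
  set a := inner ℂ x (T x) with ha
  set b := inner ℂ y (T y) with hb
  by_cases hab : a = b
  · rw [← hab, ← add_smul, hst, one_smul]; exact ⟨x, hx, ha⟩
  have hba : b - a ≠ 0 := sub_ne_zero.mpr (Ne.symm hab)
  set S : H →L[ℂ] H := (b - a)⁻¹ • (T - a • 1) with hS
  have hSv : ∀ u v : H, inner ℂ u (S v) = (inner ℂ u (T v) - a * inner ℂ u v) / (b - a) := by
    intro u v
    simp only [hS, smul_apply, sub_apply, one_apply_eq_self, inner_smul_right, inner_sub_right]
    ring
  have hxx : inner ℂ x x = (1:ℂ) := by rw [inner_self_eq_norm_sq_to_K, hx]; simp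
  have hyy : inner ℂ y y = (1:ℂ) := by rw [inner_self_eq_norm_sq_to_K, hy]; simp
  have hSx : inner ℂ x (S x) = 0 := by rw [hSv, hxx, mul_one, ← ha, sub_self, zero_div]
  have hSy : inner ℂ y (S y) = 1 := by rw [hSv, hyy, mul_one, ← hb, div_self hba]
  obtain ⟨θ, hθ, hreal⟩ : ∃ θ : ℂ, ‖θ‖ = 1 ∧
      (θ * inner ℂ x (S y) + conj θ * inner ℂ y (S x)).im = 0 := by
    set d := inner ℂ x (S y) - conj (inner ℂ y (S x)) with hd
    by_cases h : d = 0
    · refine ⟨1, norm_one, ?_⟩
      rw [hd, sub_eq_zero] at h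
      rw [map_one, one_mul, one_mul, add_im, h, conj_im]
      ring
    · refine ⟨conj d / (‖d‖:ℂ), ?_, ?_⟩
      · rw [norm_div, Complex.norm_conj, Complex.norm_real, norm_norm,
          div_self (norm_ne_zero_iff.mpr h)]
      · have h1 : (conj d / (‖d‖:ℂ) * d).im = 0 := by
          rw [div_mul_eq_mul_div, ← normSq_eq_conj_mul_self, ← ofReal_div, ofReal_im]
        have h2 : ∀ θ p q : ℂ, (θ * p + conj θ * q).im = (θ * (p - conj q)).im := by
          intro θ p q
          simp only [add_im, mul_im, sub_im, sub_re, conj_re, conj_im]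
          ring
        rw [h2]; exact h1
  set y' := θ • y with hy'def
  have hy' : inner ℂ y' (S y') = 1 := by
    rw [hy'def, map_smul, inner_smul_left, inner_smul_right, hSy, mul_one,
      ← normSq_eq_conj_mul_self, normSq_eq_norm_sq, hθ]
    simp
  have hcross : (inner ℂ x (S y') + inner ℂ y' (S x)).im = 0 := by
    rw [hy'def, map_smul, inner_smul_left, inner_smul_right]; exact hreal
  set z := fun r : ℝ => ((1 - r : ℝ) : ℂ) • x + ((r : ℝ) : ℂ) • y' with hz
  have hexp : ∀ r : ℝ, inner ℂ (z r) (S (z r)) =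
      ((1 - r : ℝ) : ℂ) * r * (inner ℂ x (S y') + inner ℂ y' (S x)) + ((r ^ 2 : ℝ):ℂ) := by
    intro r
    simp only [hz, map_add, map_smul, inner_add_left, inner_add_right, inner_smul_left,
      inner_smul_right, conj_ofReal, hSx, hy', ofReal_pow]
    ring
  have him : ∀ r : ℝ, (inner ℂ (z r) (S (z r))).im = 0 := by
    intro r
    rw [hexp, add_im, ofReal_im, add_zero, ← ofReal_mul, im_ofReal_mul, hcross, mul_zero]
  have hzne : ∀ r : ℝ, z r ≠ 0 := by
    intro r h
    have h1 : ((1 - r : ℝ):ℂ) • x = -(((r : ℝ):ℂ) • y') := eq_neg_of_add_eq_zero_left h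
    have h2 := congrArg (fun v => inner ℂ v (S v)) h1
    simp only [map_neg, map_smul, inner_neg_left, inner_neg_right, inner_smul_left,
      inner_smul_right, conj_ofReal, hSx, hy', mul_zero, mul_one, neg_neg] at h2
    have hr : (r:ℂ) = 0 := mul_self_eq_zero.mp (by linear_combination -h2)
    have hr' : r = 0 := ofReal_eq_zero.mp hr
    subst hr'
    have : x = 0 := by simpa [hz] using h
    simp [this] at hx
  set v := fun r : ℝ => (inner ℂ (z r) (S (z r))).re / ‖z r‖ ^ 2 with hv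
  have hcz : Continuous z := by fun_prop
  have hcv : Continuous v := by
    refine Continuous.div ?_ (hcz.norm.pow 2) fun r => pow_ne_zero _ (norm_ne_zero_iff.mpr (hzne r))
    exact Complex.continuous_re.comp (hcz.inner (S.continuous.comp hcz))
  have hyn : ‖y'‖ = 1 := by rw [hy'def, norm_smul, hθ, hy, one_mul]
  have hv0 : v 0 = 0 := by simp [hv, hz, hSx]
  have hv1 : v 1 = 1 := by simp [hv, hz, hy', hyn]
  obtain ⟨r, -, hr⟩ := intermediate_value_Icc zero_le_one hcv.continuousOn
    (show t ∈ Icc (v 0) (v 1) by rw [hv0, hv1]; exact ⟨ht, by linarith⟩)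
  convert quot_mem_numRange T (hzne r) using 1
  have hzz : inner ℂ (z r) (z r) = (((‖z r‖ ^ 2 : ℝ)) : ℂ) := by
    rw [inner_self_eq_norm_sq_to_K, ofReal_pow]; rfl
  have hne : (((‖z r‖ ^ 2 : ℝ)) : ℂ) ≠ 0 :=
    ofReal_ne_zero.mpr (pow_ne_zero _ (norm_ne_zero_iff.mpr (hzne r)))
  have key : inner ℂ (z r) (S (z r)) = ((t * ‖z r‖ ^ 2 : ℝ) : ℂ) := by
    apply Complex.ext
    · rw [ofReal_re, ← hr, hv, div_mul_cancel₀ _ (pow_ne_zero _ (norm_ne_zero_iff.mpr (hzne r)))]
    · rw [ofReal_im, him]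
  rw [hSv, hzz, div_eq_iff hba, ofReal_mul] at key
  rw [eq_div_iff hne]
  have hs' : (s:ℂ) = 1 - (t:ℂ) := by rw [eq_sub_iff_add_eq, ← ofReal_add, hst, ofReal_one]
  simp only [Complex.real_smul, hs']
  linear_combination -key

section finite

variable [FiniteDimensional ℂ H] [CompleteSpace H]

/-- The estimate in finite dimension. -/
theorem finite_bound [Nontrivial H] (B : H →L[ℂ] H) (q : ℂ[X]) {m : ℝ} (hm : 0 < m)
    (hq : ∀ z ∈ numRange B, ‖q.eval z‖ < m) : ‖aeval B q‖ ≤ 2 * m := by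
  have : ProperSpace H := FiniteDimensional.proper ℂ H
  obtain ⟨x0, hx0⟩ := exists_ne (0 : H)
  have hsne : (sphere (0:H) 1).Nonempty := ⟨((‖x0‖:ℂ))⁻¹ • x0, by
    rw [mem_sphere_zero_iff_norm, norm_smul, norm_inv, Complex.norm_real, norm_norm,
      inv_mul_cancel₀ (norm_ne_zero_iff.mpr hx0)]⟩
  have hW : numRange B = (fun x : H => inner ℂ x (B x)) '' sphere (0:H) 1 := by
    ext z
    simp [numRange, eq_comm]
  set S0 := numRange B with hS0
  have hS0c : IsCompact S0 := by
    rw [hW]; exact (isCompact_sphere 0 1).image (continuous_id.inner B.continuous)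
  have hS0ne : S0.Nonempty := by rw [hW]; exact hsne.image _
  -- margin
  have hopen : IsOpen {z : ℂ | ‖q.eval z‖ < m} := isOpen_lt q.continuous.norm continuous_const
  obtain ⟨e2, he2, hsub⟩ := hS0c.exists_cthickening_subset_open hopen hq
  set e := e2 / 2 with he
  have he0 : 0 < e := by positivity
  set S := cthickening e S0 with hS
  obtain ⟨k, hk⟩ := hS0ne
  obtain ⟨M, hM1, hM2, hM3, hM4⟩ := Exterior.exists_extMap (hS0c.cthickening (r := e))
    ((numRange_convex B).cthickening e) he0 (closedBall_subset_cthickening hk e) he0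
  have hin : S0 ⊆ S := self_subset_cthickening S0
  set q0 := Polynomial.C ((m:ℂ))⁻¹ * q with hq0
  have hq0le : ∀ w ∈ sph, ‖q0.eval (M.pt w)‖ ≤ 1 := by
    intro w hw
    have hlt := hM2 w hw
    obtain ⟨s, hs, hd⟩ := (infDist_lt_iff (x := M.pt w) ⟨k, hin hk⟩).mp hlt
    have hmem : M.pt w ∈ cthickening e2 S0 := by
      rw [hS, hS0c.cthickening_eq_biUnion_closedBall he0.le, mem_iUnion₂] at hs
      obtain ⟨a, ha, hsa⟩ := hs
      refine mem_cthickening_of_dist_le _ a _ _ ha ?_
      linarith [mem_closedBall.mp hsa, dist_triangle (M.pt w) s a]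
    have := hsub hmem
    rw [hq0, eval_mul, eval_C, norm_mul, norm_inv, Complex.norm_real, Real.norm_eq_abs,
      abs_of_pos hm, inv_mul_le_one₀ hm]
    exact le_of_lt this
  -- invertibility
  have hunit : ∀ w ∈ ball (0:ℂ) M.R, IsUnit (M.fn w • (1 : H →L[ℂ] H) - w • B) := by
    intro w hw
    have hinj : Function.Injective (M.fn w • (1 : H →L[ℂ] H) - w • B) := by
      rw [injective_iff_map_eq_zero]
      intro v hv
      by_contra hv0
      simp only [sub_apply, smul_apply, one_apply_eq_self] at hv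
      by_cases hw0 : w = 0
      · subst hw0
        simp [M.fn_zero_ne, hv0] at hv
      · have h := congrArg (fun u => inner ℂ v u) hv
        simp only [inner_sub_right, inner_smul_right, inner_zero_right,
          inner_self_eq_norm_sq_to_K] at h
        have hne : (((‖v‖ ^ 2 : ℝ)) : ℂ) ≠ 0 :=
          ofReal_ne_zero.mpr (pow_ne_zero _ (norm_ne_zero_iff.mpr hv0))
        refine hM1 w (M.mem_rad hw) hw0 (hin ?_)
        convert quot_mem_numRange B hv0 using 1
        rw [ExtMap.pt, div_eq_div_iff hw0 hne, ofReal_pow]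
        linear_combination h
    rw [ContinuousLinearMap.isUnit_iff_bijective]
    exact ⟨hinj, (LinearMap.injective_iff_surjective
      (f := ((M.fn w • (1 : H →L[ℂ] H) - w • B) : H →ₗ[ℂ] H))).mp hinj⟩
  -- numerical range inside the curve
  have hrange : ∀ w ∈ sph, ∀ v : H,
      0 ≤ (M.num w / w * conj (M.pt w * (‖v‖ ^ 2 : ℝ) - inner ℂ v (B v))).re := by
    intro w hw v
    by_cases hv : v = 0
    · subst hv; simp
    have hne : (((‖v‖ ^ 2 : ℝ)) : ℂ) ≠ 0 :=
      ofReal_ne_zero.mpr (pow_ne_zero _ (norm_ne_zero_iff.mpr hv))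
    have h1 := hM3 w hw _ (hin (quot_mem_numRange B hv))
    have h2 : M.num w / w * conj (M.pt w * ((‖v‖ ^ 2 : ℝ):ℂ) - inner ℂ v (B v)) =
        ((‖v‖ ^ 2 : ℝ) : ℂ) *
          (M.num w / w * conj (M.pt w - inner ℂ v (B v) / ((‖v‖ ^ 2 : ℝ):ℂ))) := by
      rw [map_sub, map_sub, map_mul, map_div₀, conj_ofReal]
      field_simp
    rw [h2, re_ofReal_mul]
    exact mul_nonneg (sq_nonneg _) h1
  -- singular pair
  set T := aeval B q0 with hT
  obtain ⟨x, hx, hmax⟩ := (isCompact_sphere (0:H) 1).exists_isMaxOn hsne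
    (T.continuous.norm.continuousOn)
  rw [mem_sphere_zero_iff_norm] at hx
  set K := ‖T x‖ with hK
  have hbound : ‖T‖ ≤ K := by
    refine ContinuousLinearMap.opNorm_le_bound _ (norm_nonneg _) fun v => ?_
    by_cases hv : v = 0
    · subst hv; simp
    have hvn : ‖v‖ ≠ 0 := norm_ne_zero_iff.mpr hv
    have hu : ((‖v‖:ℂ))⁻¹ • v ∈ sphere (0:H) 1 := by
      rw [mem_sphere_zero_iff_norm, norm_smul, norm_inv, Complex.norm_real, norm_norm,
        inv_mul_cancel₀ hvn]
    have h : ‖T (((‖v‖:ℂ))⁻¹ • v)‖ ≤ K := hmax hu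
    rw [map_smul, norm_smul, norm_inv, Complex.norm_real, norm_norm,
      inv_mul_le_iff₀ (norm_pos_iff.mpr hv)] at h
    linarith
  have hK2 : K ≤ 2 := by
    by_cases hK0 : K = 0
    · rw [hK0]; norm_num
    have hKpos : 0 < K := lt_of_le_of_ne (norm_nonneg _) (Ne.symm hK0)
    have hKc : (K:ℂ) ≠ 0 := ofReal_ne_zero.mpr hK0
    set y := ((K:ℂ))⁻¹ • T x with hy
    have hTx : T x = (K:ℂ) • y := by rw [hy, smul_smul, mul_inv_cancel₀ hKc, one_smul]
    have hyn : ‖y‖ = 1 := by
      rw [hy, norm_smul, norm_inv, Complex.norm_real, Real.norm_eq_abs, abs_of_pos hKpos, ← hK,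
        inv_mul_cancel₀ hK0]
    have hTy : ContinuousLinearMap.adjoint T y = (K:ℂ) • x := by
      have hle : ‖ContinuousLinearMap.adjoint T y‖ ≤ K := by
        refine (ContinuousLinearMap.le_opNorm _ _).trans ?_
        rw [LinearIsometryEquiv.norm_map, hyn, mul_one]; exact hbound
      have hcr : inner ℂ (ContinuousLinearMap.adjoint T y) ((K:ℂ) • x) = ((K ^ 2 : ℝ) : ℂ) := by
        rw [inner_smul_right, ContinuousLinearMap.adjoint_inner_left, hTx, inner_smul_right,
          inner_self_eq_norm_sq_to_K, hyn]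
        push_cast; ring
      have hsq : ‖ContinuousLinearMap.adjoint T y - (K:ℂ) • x‖ ^ 2 ≤ 0 := by
        rw [norm_sub_sq (𝕜 := ℂ), hcr, norm_smul, hx, Complex.norm_real, Real.norm_eq_abs,
          abs_of_pos hKpos]
        simp only [RCLike.re_to_complex, ofReal_re, mul_one]
        nlinarith [norm_nonneg (ContinuousLinearMap.adjoint T y)]
      exact sub_eq_zero.mp (norm_eq_zero.mp (sq_eq_zero_iff.mp (le_antisymm hsq (sq_nonneg _))))
    exact M.singular_le_two hunit hM4 hrange hq0le hx hTx hTy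
  have hTq : T = ((m:ℂ))⁻¹ • aeval B q := by
    rw [hT, hq0, map_mul, aeval_C, Algebra.smul_def]
  have h3 : ‖T‖ ≤ 2 := hbound.trans hK2
  rw [hTq, norm_smul, norm_inv, Complex.norm_real, Real.norm_eq_abs, abs_of_pos hm,
    inv_mul_le_iff₀ hm] at h3
  linarith

end finite

/-- Crouzeix's inequality with constant two. -/
theorem crouzeix_two [CompleteSpace H] (A : H →L[ℂ] H) (P : ℂ[X]) {m : ℝ} (hm0 : 0 ≤ m)
    (hP : ∀ z ∈ numRange A, ‖P.eval z‖ ≤ m) : ‖aeval A P‖ ≤ 2 * m := by
  refine ContinuousLinearMap.opNorm_le_bound _ (by linarith) fun x => ?_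
  by_cases hx : x = 0
  · subst hx; simp
  set d := P.natDegree
  set V : Submodule ℂ H := Submodule.span ℂ (Set.range fun k : Fin (d + 1) => (A ^ (k:ℕ)) x)
  have hfin : FiniteDimensional ℂ V := FiniteDimensional.span_of_finite ℂ (Set.finite_range _)
  have hmem : ∀ k ≤ d, (A ^ k) x ∈ V := fun k hk =>
    Submodule.subset_span ⟨⟨k, Nat.lt_succ_of_le hk⟩, rfl⟩
  set x' : V := ⟨x, by simpa using hmem 0 (Nat.zero_le _)⟩
  have : Nontrivial V := ⟨⟨x', 0, fun h => hx (congrArg Subtype.val h)⟩⟩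
  set B : V →L[ℂ] V := V.orthogonalProjection.comp (A.comp V.subtypeL) with hB
  have hBk : ∀ k ≤ d, (((B ^ k) x' : V) : H) = (A ^ k) x := by
    intro k
    induction k with
    | zero => intro _; rfl
    | succ k ih =>
      intro hk
      have hprev := ih (Nat.le_of_succ_le hk)
      have e : (A ^ (k+1)) x = A ((A ^ k) x) := by rw [pow_succ']; rfl
      have e' : (B ^ (k+1)) x' = B ((B ^ k) x') := by rw [pow_succ']; rfl
      rw [e', e]
      show ((V.orthogonalProjection (A ((B ^ k) x' : V)) : V) : H) = _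
      rw [hprev, ← e, ← Submodule.starProjection_apply,
        Submodule.starProjection_eq_self_iff.mpr (hmem (k+1) hk)]
  have hval : ((aeval B P x' : V) : H) = aeval A P x := by
    rw [aeval_eq_sum_range, aeval_eq_sum_range]
    simp only [sum_apply, smul_apply, AddSubmonoidClass.coe_finsetSum, Submodule.coe_smul]
    exact Finset.sum_congr rfl fun k hk => by
      rw [hBk k (Nat.lt_succ_iff.mp (Finset.mem_range.mp hk))]
  have hsub : numRange B ⊆ numRange A := by
    rintro z ⟨v, hv, rfl⟩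
    refine ⟨(v : H), hv, ?_⟩
    rw [hB]
    simp only [ContinuousLinearMap.coe_comp, Function.comp_apply, Submodule.subtypeL_apply]
    rw [Submodule.inner_orthogonalProjection_eq_of_mem_left]
  have key : ∀ η > 0, ‖aeval A P x‖ ≤ 2 * (m + η) * ‖x‖ := by
    intro η hη
    have h := finite_bound B P (m := m + η) (by linarith)
      (fun z hz => lt_of_le_of_lt (hP z (hsub hz)) (by linarith))
    calc ‖aeval A P x‖ = ‖aeval B P x'‖ := by rw [← hval]; rfl
      _ ≤ ‖aeval B P‖ * ‖x'‖ := ContinuousLinearMap.le_opNorm _ _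
      _ ≤ 2 * (m + η) * ‖x‖ := by
          refine mul_le_mul h (le_of_eq rfl) (norm_nonneg _) (by linarith)
  have hxn : 0 < ‖x‖ := norm_pos_iff.mpr hx
  refine le_of_forall_pos_le_add fun ε hε => ?_
  have := key (ε / (2 * ‖x‖)) (by positivity)
  refine this.trans (le_of_eq ?_)
  field_simp

end Vale.Agent.P123
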